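import Vale.Agent.P215.H562.Poly
import Vale.Agent.P215.H788.Defs

/-!
# The thickening of a capped grope is compact, Hausdorff and strongly locally contractible
-/

noncomputable section

namespace Vale.Agent.P215.H562

open Set Topology Vale.Agent.P215.H788 Vale.Agent.P215.H788.CappedGrope

/-! ### Coordinates -/

abbrev c1 (x : E) : ℝ := x.1.1
abbrev c2 (x : E) : ℝ := x.1.2
abbrev c3 (x : E) : ℝ := x.2.1.1
abbrev c4 (x : E) : ℝ := x.2.1.2
abbrev c5 (x : E) : ℝ := x.2.2.1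
abbrev c6 (x : E) : ℝ := x.2.2.2

theorem aff1 : Aff c1 := ⟨by fun_prop, fun x y c => by simp [c1]⟩
theorem aff2 : Aff c2 := ⟨by fun_prop, fun x y c => by simp [c2]⟩
theorem aff3 : Aff c3 := ⟨by fun_prop, fun x y c => by simp [c3]⟩
theorem aff4 : Aff c4 := ⟨by fun_prop, fun x y c => by simp [c4]⟩
theorem aff5 : Aff c5 := ⟨by fun_prop, fun x y c => by simp [c5]⟩
theorem aff6 : Aff c6 := ⟨by fun_prop, fun x y c => by simp [c6]⟩

theorem poly_sq1 (L : ℝ) : Poly fun x : E => x.1 ∈ Sq L :=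
  ((Poly.icc aff1 0 L).and (Poly.icc aff2 0 L)).congr fun _ => Iff.rfl

theorem poly_sq2 (L : ℝ) : Poly fun x : E => x.2.1 ∈ Sq L :=
  ((Poly.icc aff3 0 L).and (Poly.icc aff4 0 L)).congr fun _ => Iff.rfl

theorem poly_fib : Poly fun x : E => x.2.2 ∈ Fib :=
  ((Poly.icc aff5 1 3).and (Poly.icc aff6 1 3)).congr fun _ => Iff.rfl

theorem poly_bd1 (L : ℝ) : Poly fun x : E => x.1 ∈ bdSq L :=
  ((poly_sq1 L).and ((Poly.eq aff1 (.const 0)).or ((Poly.eq aff1 (.const L)).or
    ((Poly.eq aff2 (.const 0)).or (Poly.eq aff2 (.const L)))))).congr fun _ => Iff.rfl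

theorem poly_bd2 (L : ℝ) : Poly fun x : E => x.2.1 ∈ bdSq L :=
  ((poly_sq2 L).and ((Poly.eq aff3 (.const 0)).or ((Poly.eq aff3 (.const L)).or
    ((Poly.eq aff4 (.const 0)).or (Poly.eq aff4 (.const L)))))).congr fun _ => Iff.rfl

theorem poly_zero : Poly fun x : E => x.2.1 = 0 :=
  ((Poly.eq aff3 (.const 0)).and (Poly.eq aff4 (.const 0))).congr fun x => by
    rw [Prod.ext_iff]; rfl

theorem poly_hole (j : ℕ) : Poly fun x : E => x.1 ∉ hole j :=
  ((Poly.not_ioo aff1 (4 * (j : ℝ) + 1) (4 * j + 3)).or (Poly.not_ioo aff2 1 3)).congr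
    fun x => by
      unfold hole
      rw [mem_ofPred_eq, not_and_or]

variable (G : CappedGrope)

theorem le_L {n : ℕ} (h : n ≤ 1 + G.genera.length + G.genera.sum + 2 * G.plumbings.length) :
    4 * (n : ℝ) ≤ G.L := by
  have h3 : (n : ℝ) ≤ ((1 + G.genera.length + G.genera.sum + 2 * G.plumbings.length : ℕ) : ℝ) :=
    Nat.cast_le.2 h
  unfold L
  linarith

theorem four_le_L : (4 : ℝ) ≤ G.L := by
  have := le_L G (n := 1) (by omega)
  simpa using this

theorem lt_genus_bound {s j : ℕ} (h : j < G.genus s) :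
    j < G.genera.length + G.genera.sum := by
  cases s with
  | zero =>
    have : j < G.genera.length := h
    omega
  | succ s =>
    have h2 : j < G.genera.getD s 0 := h
    by_cases hs : s < G.genera.length
    · have : G.genera.getD s 0 ≤ G.genera.sum := by
        rw [List.getD_eq_getElem _ _ hs]
        exact List.le_sum_of_mem (List.getElem_mem hs)
      omega
    · rw [List.getD_eq_default _ _ (not_lt.1 hs)] at h2
      omega

theorem hole_le_L {s j : ℕ} (h : j < G.genus s) : 4 * (j : ℝ) + 4 ≤ G.L := by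
  have := le_L G (n := j + 1) (by have := lt_genus_bound G h; omega)
  push_cast at this
  linarith

theorem plumb_le_L {k : ℕ} (h : k < G.plumbings.length) : 8 * (k : ℝ) + 8 ≤ G.L := by
  have := le_L G (n := 2 * k + 2) (by omega)
  push_cast at this
  linarith

/-- On the boundary of the square, the right side is characterised by inequalities. -/
theorem bdSq_side {L : ℝ} (hL : 4 ≤ L) {p : ℝ × ℝ} (hp : p ∈ bdSq L) :
    ¬ (p.1 = L ∧ p.2 ∈ Ioo 1 3) ↔ (p.1 ≤ 0 ∨ p.2 ∉ Ioo 1 3) := by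
  obtain ⟨⟨⟨a1, a2⟩, a3, a4⟩, h⟩ := hp
  rw [not_and_or]
  constructor
  · rintro (h1 | h1)
    · by_cases h2 : p.2 ∈ Ioo 1 3
      · left
        rcases h with h | h | h | h
        · exact h.le
        · exact absurd h h1
        · exact absurd h2.1 (by linarith)
        · exact absurd h2.2 (by linarith)
      · exact Or.inr h2
    · exact Or.inr h1
  · rintro (h1 | h1)
    · left
      intro h2
      linarith
    · exact Or.inr h1

theorem poly_region (b : Block) : Poly fun x => x ∈ G.region b := by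
  cases b with
  | base s =>
    exact ((Poly.prop _).and (((poly_sq1 G.L).and (Poly.ball poly_hole (G.genus s))).and
      (poly_zero.and poly_fib))).congr fun _ => Iff.rfl
  | handle s j =>
    refine ((Poly.prop (j < G.genus s)).and (((poly_bd1 G.L).and ((poly_bd2 G.L).and
      (((Poly.le aff1 (.const 0)).or (Poly.not_ioo aff2 1 3)).or
      ((Poly.le aff3 (.const 0)).or (Poly.not_ioo aff4 1 3))))).and poly_fib)).congr
        fun x => ?_
    have hL := four_le_L G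
    change (j < G.genus s ∧ (x.1 ∈ bdSq G.L ∧ x.2.1 ∈ bdSq G.L ∧
      ¬ (x.1.1 = G.L ∧ x.2.1.1 = G.L ∧ x.1.2 ∈ Ioo 1 3 ∧ x.2.1.2 ∈ Ioo 1 3)) ∧ x.2.2 ∈ Fib) ↔ _
    refine and_congr_right fun _ => and_congr_left fun _ => and_congr_right fun h1 =>
      and_congr_right fun h2 => ?_
    have e1 := bdSq_side hL h1
    have e2 := bdSq_side hL h2
    change _ ↔ (x.1.1 ≤ 0 ∨ x.1.2 ∉ Ioo 1 3) ∨ (x.2.1.1 ≤ 0 ∨ x.2.1.2 ∉ Ioo 1 3)
    rw [← e1, ← e2]
    tauto
  | cap t =>
    exact ((Poly.prop _).and ((poly_sq1 G.L).and (poly_zero.and poly_fib))).congr fun _ => Iff.rfl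

/-- All regions lie in a bounded set. -/
theorem region_subset (b : Block) :
    G.region b ⊆ (Icc 0 G.L ×ˢ Icc 0 G.L) ×ˢ ((Icc 0 G.L ×ˢ Icc 0 G.L) ×ˢ (Icc 1 3 ×ˢ Icc 1 3)) := by
  have hL := four_le_L G
  have h0 : (0 : ℝ) ∈ Icc 0 G.L := ⟨le_rfl, by linarith⟩
  cases b with
  | base s =>
    rintro x ⟨-, ⟨h1, -⟩, h2, h3⟩
    refine ⟨⟨h1.1, h1.2⟩, ⟨?_, h3.1, h3.2⟩⟩
    rw [h2]
    exact ⟨h0, h0⟩
  | handle s j =>
    rintro x ⟨-, ⟨h1, h2, -⟩, h3⟩
    exact ⟨⟨h1.1.1, h1.1.2⟩, ⟨⟨h2.1.1, h2.1.2⟩, ⟨h3.1, h3.2⟩⟩⟩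
  | cap t =>
    rintro x ⟨-, h1, h2, h3⟩
    refine ⟨⟨h1.1, h1.2⟩, ⟨?_, h3.1, h3.2⟩⟩
    rw [h2]
    exact ⟨h0, h0⟩

theorem isCompact_region (b : Block) : IsCompact (G.region b) := by
  refine IsCompact.of_isClosed_subset ?_ (poly_region G b).closed (region_subset G b)
  exact (isCompact_Icc.prod isCompact_Icc).prod
    ((isCompact_Icc.prod isCompact_Icc).prod (isCompact_Icc.prod isCompact_Icc))

/-- There are finitely many pairs `(s, j)` with `j < genus s`. -/
theorem finite_pairs : {p : ℕ × ℕ | p.2 < G.genus p.1}.Finite := by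
  refine ((finite_Iic (G.genera.length)).prod (finite_Iio
    (G.genera.length + G.genera.sum))).subset ?_
  rintro ⟨s, j⟩ h
  refine ⟨?_, lt_genus_bound G h⟩
  have h' : j < G.genus s := h
  cases s with
  | zero => exact Nat.zero_le _
  | succ s =>
    have h2 : j < G.genera.getD s 0 := h'
    by_contra hs
    have hs' : ¬ (s + 1 ≤ G.genera.length) := hs
    rw [List.getD_eq_default _ _ (by omega)] at h2
    omega

theorem finite_nonempty : {b : Block | (G.region b).Nonempty}.Finite := by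
  have h1 := finite_pairs G
  have h2 : {b : Block | (G.region b).Nonempty} ⊆
      ((fun p : ℕ × ℕ => Block.base p.1) '' {p : ℕ × ℕ | p.2 < G.genus p.1}) ∪
      ((fun p : ℕ × ℕ => Block.handle p.1 p.2) '' {p : ℕ × ℕ | p.2 < G.genus p.1}) ∪
      ((fun p : ℕ × ℕ => Block.cap (p.1, p.2, true)) '' {p : ℕ × ℕ | p.2 < G.genus p.1}) ∪
      ((fun p : ℕ × ℕ => Block.cap (p.1, p.2, false)) '' {p : ℕ × ℕ | p.2 < G.genus p.1}) := by
    rintro b ⟨x, hx⟩
    cases b with
    | base s => exact Or.inl (Or.inl (Or.inl ⟨(s, 0), hx.1, rfl⟩))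
    | handle s j => exact Or.inl (Or.inl (Or.inr ⟨(s, j), hx.1, rfl⟩))
    | cap t =>
      obtain ⟨s, j, b⟩ := t
      have hj : j < G.genus s := hx.1.1
      cases b with
      | true => exact Or.inl (Or.inr ⟨(s, j), hj, rfl⟩)
      | false => exact Or.inr ⟨(s, j), hj, rfl⟩
  exact ((((h1.image _).union (h1.image _)).union (h1.image _)).union (h1.image _)).subset h2

/-! ### The gluings -/

/-- The index set of the gluings: holes, tips, plumbings. -/
abbrev GIdx : Type :=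
  {p : ℕ × ℕ // p.2 < G.genus p.1} ⊕ ({t : Tip // t.2.1 < G.genus t.1} ⊕ Fin G.plumbings.length)

instance : Finite {p : ℕ × ℕ // p.2 < G.genus p.1} := (finite_pairs G).to_subtype

instance : Finite {t : Tip // t.2.1 < G.genus t.1} := by
  have : Function.Injective fun t : {t : Tip // t.2.1 < G.genus t.1} =>
      ((⟨(t.1.1, t.1.2.1), t.2⟩ : {p : ℕ × ℕ // p.2 < G.genus p.1}), t.1.2.2) := by
    rintro ⟨⟨s, j, b⟩, h⟩ ⟨⟨s', j', b'⟩, h'⟩ hh
    simp only [Prod.mk.injEq, Subtype.mk.injEq] at hh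
    obtain ⟨⟨rfl, rfl⟩, rfl⟩ := hh
    rfl
  exact Finite.of_injective _ this

/-- the block of the source of a gluing -/
def src : GIdx G → Block
  | .inl p => .base p.1.1
  | .inr (.inl t) => nextBlock t.1
  | .inr (.inr k) => .cap G.plumbings[k].1

/-- the block of the target of a gluing -/
def tgt : GIdx G → Block
  | .inl p => .handle p.1.1 p.1.2
  | .inr (.inl t) => .handle t.1.1 t.1.2.1
  | .inr (.inr k) => .cap G.plumbings[k].2.1

/-- the cell of a gluing -/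
def cell : GIdx G → Set E
  | .inl p => {x | (x.1.1 - 4 * (p.1.2 : ℝ), x.1.2) ∈ bdFib ∧ x.2.1 = 0 ∧ x.2.2 ∈ Fib}
  | .inr (.inl _) => {x | x.1 ∈ bdSq G.L ∧ x.2.1 = 0 ∧ x.2.2 ∈ Fib}
  | .inr (.inr k) => {x | (x.1.1 - 8 * ((k : ℕ) : ℝ), x.1.2) ∈ Fib ∧ x.2.1 = 0 ∧ x.2.2 ∈ Fib}

/-- the map of a gluing -/
def gmap : GIdx G → E → E
  | .inl p => fun x => ((G.L, x.1.2), (G.L, x.1.1 - 4 * (p.1.2 : ℝ)), x.2.2)
  | .inr (.inl t) => if t.1.2.2 then fun x => ((0, x.2.2.1), x.1, (1, x.2.2.2))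
      else fun x => (x.1, (0, x.2.2.1), (3, x.2.2.2))
  | .inr (.inr k) => if G.plumbings[k].2.2 then
      fun x => ((8 * ((k : ℕ) : ℝ) + 4 + x.2.2.1, x.2.2.2), 0, (x.1.1 - 8 * ((k : ℕ) : ℝ), x.1.2))
      else fun x => ((8 * ((k : ℕ) : ℝ) + 4 + (4 - x.2.2.1), x.2.2.2), 0,
        (4 - (x.1.1 - 8 * ((k : ℕ) : ℝ)), x.1.2))

theorem glue_iff (x y : Pt G.region) : G.Glue x.1 y.1 ↔
    ∃ k, x.1.1 = src G k ∧ x.1.2 ∈ cell G k ∧ y.1.1 = tgt G k ∧ y.1.2 = gmap G k x.1.2 := by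
  obtain ⟨⟨b, x⟩, hx⟩ := x
  obtain ⟨⟨b', y⟩, hy⟩ := y
  constructor
  · intro h
    change G.Glue (b, x) (b', y) at h
    cases h with
    | hole s j a v ha =>
      refine ⟨.inl ⟨(s, j), hy.1⟩, rfl, ⟨?_, rfl, hx.2.2.2⟩, rfl, ?_⟩
      · simpa using ha
      · simp [gmap]
    | fst s j z v hz hv =>
      refine ⟨.inr (.inl ⟨(s, j, false), hy.1⟩), rfl, ⟨hz, rfl, hv⟩, rfl, ?_⟩
      simp [gmap]
    | snd s j z v hz hv =>
      refine ⟨.inr (.inl ⟨(s, j, true), hy.1⟩), rfl, ⟨hz, rfl, hv⟩, rfl, ?_⟩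
      simp [gmap]
    | pos k c c' h u v hu hv =>
      obtain ⟨hk, hk'⟩ := List.getElem?_eq_some_iff.1 h
      refine ⟨.inr (.inr ⟨k, hk⟩), ?_, ⟨?_, rfl, hv⟩, ?_, ?_⟩
      · simp [src, hk']
      · simpa using hu
      · simp [tgt, hk']
      · simp [gmap, hk']
    | neg k c c' h u v hu hv =>
      obtain ⟨hk, hk'⟩ := List.getElem?_eq_some_iff.1 h
      refine ⟨.inr (.inr ⟨k, hk⟩), ?_, ⟨?_, rfl, hv⟩, ?_, ?_⟩
      · simp [src, hk']
      · simpa using hu
      · simp [tgt, hk']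
      · simp [gmap, hk', H788.refl]
  · rintro ⟨k, h1, h2, h3, h4⟩
    change b = _ at h1
    change x ∈ _ at h2
    change b' = _ at h3
    change y = _ at h4
    subst h1 h3 h4
    obtain ⟨⟨x1, x2⟩, q, v⟩ := x
    rcases k with ⟨⟨s, j⟩, hp⟩ | ⟨⟨s, j, b⟩, ht⟩ | k
    · obtain ⟨g1, g2, g3⟩ := h2
      change q = 0 at g2
      subst g2
      have := Glue.hole (G := G) s j (x1 - 4 * (j : ℝ), x2) v g1
      simp only [add_sub_cancel] at this
      exact this
    · obtain ⟨g1, g2, g3⟩ := h2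
      change q = 0 at g2
      subst g2
      cases b with
      | true => exact Glue.snd (G := G) s j (x1, x2) v g1 g3
      | false => exact Glue.fst (G := G) s j (x1, x2) v g1 g3
    · obtain ⟨g1, g2, g3⟩ := h2
      change q = 0 at g2
      subst g2
      obtain ⟨k, hk⟩ := k
      rcases hp : G.plumbings[k] with ⟨c, c', b⟩
      have hp' : G.plumbings[k]? = some (c, c', b) := by
        rw [List.getElem?_eq_getElem hk, hp]
      cases b with
      | true =>
        have := Glue.pos (G := G) k c c' hp' (x1 - 8 * (k : ℝ), x2) v g1 g3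
        simp only [add_sub_cancel] at this
        simpa [src, tgt, gmap, hp] using this
      | false =>
        have := Glue.neg (G := G) k c c' hp' (x1 - 8 * (k : ℝ), x2) v g1 g3
        simp only [add_sub_cancel] at this
        simpa [src, tgt, gmap, hp, H788.refl] using this

theorem continuous_gmap (k : GIdx G) : Continuous (gmap G k) := by
  rcases k with ⟨⟨s, j⟩, hp⟩ | ⟨⟨s, j, b⟩, ht⟩ | k
  · simp only [gmap]
    fun_prop
  · cases b
    · simp only [gmap, Bool.false_eq_true, if_false]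
      fun_prop
    · simp only [gmap, if_true]
      fun_prop
  · simp only [gmap]
    split_ifs <;> fun_prop

theorem affine_gmap (k : GIdx G) (x y : E) (c : ℝ) :
    gmap G k (y + c • (x - y)) = gmap G k y + c • (gmap G k x - gmap G k y) := by
  rcases k with ⟨⟨s, j⟩, hp⟩ | ⟨⟨s, j, b⟩, ht⟩ | k
  · simp only [gmap]
    ext <;> simp
    ring
  · cases b
    · simp only [gmap, Bool.false_eq_true, if_false]
      ext <;> simp
    · simp only [gmap, if_true]
      ext <;> simp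
  · simp only [gmap]
    split_ifs
    · ext <;> simp <;> ring
    · ext <;> simp <;> ring

theorem dist_gmap (k : GIdx G) (x y : E) (hx : x ∈ cell G k) (hy : y ∈ cell G k) :
    dist (gmap G k x) (gmap G k y) = dist x y := by
  have key : x.2.1 = 0 ∧ y.2.1 = 0 := by
    rcases k with ⟨⟨s, j⟩, hp⟩ | ⟨⟨s, j, b⟩, ht⟩ | k
    · exact ⟨hx.2.1, hy.2.1⟩
    · exact ⟨hx.2.1, hy.2.1⟩
    · exact ⟨hx.2.1, hy.2.1⟩
  obtain ⟨⟨x1, x2⟩, x3, x5, x6⟩ := x
  obtain ⟨⟨y1, y2⟩, y3, y5, y6⟩ := y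
  obtain ⟨k1, k2⟩ := key
  change x3 = 0 at k1
  change y3 = 0 at k2
  subst k1 k2
  have e1 : ∀ a b c d : ℝ, |c + (d - a) - (c + (d - b))| = |a - b| := fun a b c d => by
    rw [abs_sub_comm a b]
    congr 1
    ring
  have e2 : ∀ a b c d : ℝ, |(d - (a - c)) - (d - (b - c))| = |a - b| := fun a b c d => by
    rw [abs_sub_comm a b]
    congr 1
    ring
  have e3 : ∀ a b c : ℝ, |c + a - (c + b)| = |a - b| := fun a b c => by
    congr 1
    ring
  rcases k with ⟨⟨s, j⟩, hp⟩ | ⟨⟨s, j, b⟩, ht⟩ | k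
  · simp only [gmap, Prod.dist_eq, Real.dist_eq, dist_self, sub_sub_sub_cancel_right]
    simp [max_comm, max_left_comm]
  · cases b
    · simp only [gmap, Bool.false_eq_true, if_false, Prod.dist_eq, Real.dist_eq, dist_self]
      simp
    · simp only [gmap, if_true, Prod.dist_eq, Real.dist_eq, dist_self]
      simp [max_comm, max_left_comm]
  · simp only [gmap]
    split_ifs
    · simp only [Prod.dist_eq, Real.dist_eq, dist_self, sub_sub_sub_cancel_right, e3]
      simp [max_comm, max_left_comm]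
    · simp only [Prod.dist_eq, Real.dist_eq, dist_self, e1, e2]
      simp [max_comm, max_left_comm]

/-! ### Closedness and shape of the cells -/

theorem Poly.sub_const {f : E → ℝ} (hf : Aff f) (a : ℝ) : Aff fun x => f x - a :=
  ⟨hf.cont.sub continuous_const, fun x y c => by rw [hf.aff]; ring⟩

theorem poly_cell (k : GIdx G) : Poly fun x => x ∈ cell G k := by
  rcases k with ⟨⟨s, j⟩, hp⟩ | ⟨t, ht⟩ | k
  · have a1 := Poly.sub_const aff1 (4 * (j : ℝ))
    exact ((((Poly.icc a1 1 3).and (Poly.icc aff2 1 3)).and ((Poly.eq a1 (.const 1)).or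
      ((Poly.eq a1 (.const 3)).or ((Poly.eq aff2 (.const 1)).or (Poly.eq aff2 (.const 3)))))).and
      (poly_zero.and poly_fib)).congr fun _ => Iff.rfl
  · exact ((poly_bd1 G.L).and (poly_zero.and poly_fib)).congr fun _ => Iff.rfl
  · have a1 := Poly.sub_const aff1 (8 * ((k : ℕ) : ℝ))
    exact (((Poly.icc a1 1 3).and (Poly.icc aff2 1 3)).and
      (poly_zero.and poly_fib)).congr fun _ => Iff.rfl

/-! ### Disjointness of the cells -/

theorem nat_eq_of_near {a j j' : ℕ} {x : ℝ} (ha : 3 ≤ a) (h1 : x - a * (j : ℝ) ∈ Icc (1 : ℝ) 3)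
    (h2 : x - a * (j' : ℝ) ∈ Icc (1 : ℝ) 3) : j = j' := by
  have ha' : (3 : ℝ) ≤ a := by exact_mod_cast ha
  by_contra hne
  rcases Nat.lt_or_gt_of_ne hne with h | h
  · have : (j : ℝ) + 1 ≤ j' := by exact_mod_cast h
    nlinarith [h1.1, h1.2, h2.1, h2.2]
  · have : (j' : ℝ) + 1 ≤ j := by exact_mod_cast h
    nlinarith [h1.1, h1.2, h2.1, h2.2]

/-- A point of the boundary of the square is not in a small square in the interior. -/
theorem not_bdSq {L a : ℝ} {p : ℝ × ℝ} (hL : 4 ≤ L) (ha : 0 ≤ a) (haL : a + 4 ≤ L)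
    (h1 : p.1 - a ∈ Icc (1 : ℝ) 3) (h2 : p.2 ∈ Icc (1 : ℝ) 3) : p ∉ bdSq L := by
  rintro ⟨-, h | h | h | h⟩
  · linarith [h1.1]
  · linarith [h1.2]
  · linarith [h2.1]
  · linarith [h2.2]

theorem nextBlock_inj {t t' : Tip} (h : nextBlock t = nextBlock t') : t = t' := by
  obtain ⟨s, j, b⟩ := t
  obtain ⟨s', j', b'⟩ := t'
  unfold nextBlock at h
  split_ifs at h with h1 h2 h2
  · obtain ⟨rfl, rfl⟩ := h1
    obtain ⟨rfl, rfl⟩ := h2
    simpa using h
  · simpa using h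

theorem src_disj (k k' : GIdx G) (hne : k ≠ k') (hs : src G k = src G k') :
    Disjoint (cell G k) (cell G k') := by
  rw [disjoint_left]
  have hL := four_le_L G
  rcases k with ⟨⟨s, j⟩, hp⟩ | ⟨t, ht⟩ | k <;> rcases k' with ⟨⟨s', j'⟩, hp'⟩ | ⟨t', ht'⟩ | k'
  · rintro x ⟨h1, -⟩ ⟨h2, -⟩
    simp only [src, Block.base.injEq] at hs
    subst hs
    have : j = j' := nat_eq_of_near (a := 4) (by norm_num) (by simpa using h1.1.1)
      (by simpa using h2.1.1)
    subst this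
    exact hne rfl
  · rintro x ⟨h1, -⟩ ⟨h2, -⟩
    have := hole_le_L G hp
    exact not_bdSq hL (a := 4 * (j : ℝ)) (by positivity) (by simpa using this) h1.1.1 h1.1.2 h2
  · simp [src] at hs
  · rintro x ⟨h1, -⟩ ⟨h2, -⟩
    have := hole_le_L G hp'
    exact not_bdSq hL (a := 4 * (j' : ℝ)) (by positivity) (by simpa using this) h2.1.1 h2.1.2 h1
  · exact (hne (by rw [Sum.inr.injEq, Sum.inl.injEq, Subtype.mk.injEq]; exact nextBlock_inj hs)).elim
  · rintro x ⟨h1, -⟩ ⟨h2, -⟩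
    have := plumb_le_L G k'.2
    exact not_bdSq hL (a := 8 * ((k' : ℕ) : ℝ)) (by positivity) (by linarith) h2.1 h2.2 h1
  · simp [src] at hs
  · rintro x ⟨h1, -⟩ ⟨h2, -⟩
    have := plumb_le_L G k.2
    exact not_bdSq hL (a := 8 * ((k : ℕ) : ℝ)) (by positivity) (by linarith) h1.1 h1.2 h2
  · rintro x ⟨h1, -⟩ ⟨h2, -⟩
    have : (k : ℕ) = k' := nat_eq_of_near (a := 8) (by norm_num) (by simpa using h1.1)
      (by simpa using h2.1)
    exact hne (by rw [Fin.ext this])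

/-- The target cell of a plumbing. -/
theorem gmap_plumb (k : Fin G.plumbings.length) {x : E} (hx : x ∈ cell G (.inr (.inr k))) :
    ((gmap G (.inr (.inr k)) x).1.1 - 4) - 8 * ((k : ℕ) : ℝ) ∈ Icc (1 : ℝ) 3 ∧
      (gmap G (.inr (.inr k)) x).1.2 ∈ Icc (1 : ℝ) 3 := by
  obtain ⟨-, -, ⟨h1, h2⟩, h3⟩ := hx
  simp only [gmap]
  split_ifs
  · refine ⟨⟨?_, ?_⟩, h3⟩
    · change (1 : ℝ) ≤ 8 * ((k : ℕ) : ℝ) + 4 + x.2.2.1 - 4 - 8 * ((k : ℕ) : ℝ)
      linarith
    · change 8 * ((k : ℕ) : ℝ) + 4 + x.2.2.1 - 4 - 8 * ((k : ℕ) : ℝ) ≤ 3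
      linarith
  · refine ⟨⟨?_, ?_⟩, h3⟩
    · change (1 : ℝ) ≤ 8 * ((k : ℕ) : ℝ) + 4 + (4 - x.2.2.1) - 4 - 8 * ((k : ℕ) : ℝ)
      linarith
    · change 8 * ((k : ℕ) : ℝ) + 4 + (4 - x.2.2.1) - 4 - 8 * ((k : ℕ) : ℝ) ≤ 3
      linarith

theorem tgt_disj (k k' : GIdx G) (hne : k ≠ k') (hs : tgt G k = tgt G k') :
    Disjoint (gmap G k '' cell G k) (gmap G k' '' cell G k') := by
  rw [disjoint_left]
  have hL := four_le_L G
  rcases k with ⟨⟨s, j⟩, hp⟩ | ⟨⟨s, j, b⟩, ht⟩ | k <;>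
    rcases k' with ⟨⟨s', j'⟩, hp'⟩ | ⟨⟨s', j', b'⟩, ht'⟩ | k'
  · simp only [tgt, Block.handle.injEq] at hs
    obtain ⟨rfl, rfl⟩ := hs
    exact (hne rfl).elim
  · rintro _ ⟨x, -, rfl⟩ ⟨y, -, h⟩
    cases b'
    · have h' : (0 : ℝ) = G.L := by
        have := congrArg c3 h
        simpa [gmap, c3] using this
      linarith
    · have h' : (0 : ℝ) = G.L := by
        have := congrArg c1 h
        simpa [gmap, c1] using this
      linarith
  · simp [tgt] at hs
  · rintro _ ⟨x, -, rfl⟩ ⟨y, -, h⟩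
    cases b
    · have h' : G.L = (0 : ℝ) := by
        have := congrArg c3 h
        simpa [gmap, c3] using this
      linarith
    · have h' : G.L = (0 : ℝ) := by
        have := congrArg c1 h
        simpa [gmap, c1] using this
      linarith
  · simp only [tgt, Block.handle.injEq] at hs
    obtain ⟨rfl, rfl⟩ := hs
    rintro _ ⟨x, -, rfl⟩ ⟨y, -, h⟩
    have hb : b ≠ b' := by
      rintro rfl
      exact hne rfl
    have h' := congrArg c5 h
    cases b <;> cases b'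
    · exact hb rfl
    · norm_num [gmap, c5] at h'
    · norm_num [gmap, c5] at h'
    · exact hb rfl
  · simp [tgt] at hs
  · simp [tgt] at hs
  · simp [tgt] at hs
  · rintro _ ⟨x, hx, rfl⟩ ⟨y, hy, h⟩
    have h1 := (gmap_plumb G k hx).1
    have h2 := (gmap_plumb G k' hy).1
    rw [h] at h2
    generalize (gmap G (.inr (.inr k)) x).1.1 - 4 = z at h1 h2
    have : (k : ℕ) = k' := nat_eq_of_near (a := 8) (by norm_num) (by simpa using h1)
      (by simpa using h2)
    exact hne (by rw [Fin.ext this])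

theorem src_tgt_disj (k k' : GIdx G) (hs : src G k = tgt G k') :
    Disjoint (cell G k) (gmap G k' '' cell G k') := by
  rw [disjoint_left]
  have hL := four_le_L G
  rcases k with ⟨⟨s, j⟩, hp⟩ | ⟨t, ht⟩ | k <;>
    rcases k' with ⟨⟨s', j'⟩, hp'⟩ | ⟨t', ht'⟩ | k'
  · simp [src, tgt] at hs
  · simp [src, tgt] at hs
  · simp [src, tgt] at hs
  · simp only [src, tgt, nextBlock] at hs
    split_ifs at hs
  · simp only [src, tgt, nextBlock] at hs
    split_ifs at hs
  · rintro _ ⟨h1, -⟩ ⟨y, hy, rfl⟩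
    have h2 := gmap_plumb G k' hy
    have := plumb_le_L G k'.2
    refine not_bdSq hL (a := 8 * ((k' : ℕ) : ℝ) + 4) (by positivity) (by linarith) ?_ h2.2 h1
    have := h2.1
    rwa [sub_sub, add_comm (4 : ℝ)] at this
  · simp [src, tgt] at hs
  · simp [src, tgt] at hs
  · rintro _ ⟨h1, -⟩ ⟨y, hy, rfl⟩
    have h2 := (gmap_plumb G k' hy).1
    have h3 := h1.1
    change _ - 8 * ((k : ℕ) : ℝ) ∈ Icc (1 : ℝ) 3 at h3
    generalize (gmap G (.inr (.inr k')) y).1.1 = z at h2 h3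
    rcases lt_or_ge (k : ℕ) (k' + 1) with h | h
    · have h4 : ((k : ℕ) : ℝ) ≤ ((k' : ℕ) : ℝ) := by exact_mod_cast Nat.lt_succ_iff.1 h
      linarith [h2.1, h2.2, h3.1, h3.2]
    · have h4 : ((k' : ℕ) : ℝ) + 1 ≤ ((k : ℕ) : ℝ) := by exact_mod_cast h
      linarith [h2.1, h2.2, h3.1, h3.2]

/-- **The thickening of a capped grope is compact, Hausdorff and strongly locally contractible.** -/
theorem thickening_nice : CompactSpace G.Thickening ∧ T2Space G.Thickening ∧
    StronglyLocallyContractibleSpace G.Thickening :=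
  glue_main (R := G.region) (s := src G) (t := tgt G) (A := cell G) (f := gmap G)
    (finite_nonempty G) (isCompact_region G) (fun b => (poly_region G b).star)
    (glue_iff G) (continuous_gmap G) (affine_gmap G) (fun k => (poly_cell G k).closed)
    (fun k => (poly_cell G k).star) (fun k x hx y hy => dist_gmap G k x y hx hy)
    (src_disj G) (tgt_disj G) (src_tgt_disj G)

end Vale.Agent.P215.H562
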