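import Mathlib

/-!
# A gluing lemma

Finitely many compact, locally star-shaped blocks in a normed space are glued along finitely many
pairwise disjoint closed, locally star-shaped cells by affine maps which are isometric on the cells.
The quotient is compact, Hausdorff and strongly locally contractible.
-/

noncomputable section

namespace Vale.Agent.P215.H562

open Set Topology unitInterval

section Blocks

variable {ι E : Type*} [TopologicalSpace ι] [NormedAddCommGroup E]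

/-- The disjoint union of the blocks `R i`. -/
abbrev Pt (R : ι → Set E) : Type _ := {x : ι × E // x.2 ∈ R x.1}

/-- The ball of radius `ρ` around `x` in the block of `x`. -/
def bl (R : ι → Set E) (x : Pt R) (ρ : ℝ) : Set (Pt R) :=
  {y | y.1.1 = x.1.1 ∧ dist y.1.2 x.1.2 < ρ}

theorem isOpen_bl [DiscreteTopology ι] (R : ι → Set E) (x : Pt R) (ρ : ℝ) :
    IsOpen (bl R x ρ) := by
  have h1 : IsOpen {y : Pt R | y.1.1 = x.1.1} :=
    (isOpen_discrete {x.1.1}).preimage (continuous_fst.comp continuous_subtype_val)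
  have h2 : IsOpen {y : Pt R | dist y.1.2 x.1.2 < ρ} :=
    isOpen_lt ((continuous_snd.comp continuous_subtype_val).dist continuous_const)
      continuous_const
  exact h1.inter h2

omit [TopologicalSpace ι] in
theorem mem_bl_self (R : ι → Set E) (x : Pt R) {ρ : ℝ} (h : 0 < ρ) : x ∈ bl R x ρ :=
  ⟨rfl, by simpa using h⟩

omit [TopologicalSpace ι] in
theorem bl_mono (R : ι → Set E) (x : Pt R) {ρ τ : ℝ} (h : ρ ≤ τ) : bl R x ρ ⊆ bl R x τ :=
  fun _ hy => ⟨hy.1, hy.2.trans_le h⟩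

theorem exists_bl_subset [DiscreteTopology ι] (R : ι → Set E) (x : Pt R) {V : Set (Pt R)}
    (hV : V ∈ 𝓝 x) : ∃ ρ > 0, bl R x ρ ⊆ V := by
  rw [nhds_subtype_eq_comap, Filter.mem_comap] at hV
  obtain ⟨V', hV', hV⟩ := hV
  rw [nhds_prod_eq, nhds_discrete, Filter.mem_prod_iff] at hV'
  obtain ⟨A, hA, B, hB, h⟩ := hV'
  obtain ⟨ρ, hρ, hB⟩ := Metric.mem_nhds_iff.1 hB
  refine ⟨ρ, hρ, fun y hy => hV (h ⟨?_, hB hy.2⟩)⟩
  have : y.1.1 = x.1.1 := hy.1
  change y.1.1 ∈ A
  rw [this]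
  exact Filter.mem_pure.1 hA

/-- The disjoint union of the blocks is compact. -/
theorem compactSpace_pt (R : ι → Set E) (hfin : {i | (R i).Nonempty}.Finite)
    (hR : ∀ i, IsCompact (R i)) : CompactSpace (Pt R) := by
  have h : {x : ι × E | x.2 ∈ R x.1} = ⋃ i ∈ {i | (R i).Nonempty}, {i} ×ˢ R i := by
    ext ⟨i, x⟩
    simp only [mem_ofPred_eq, mem_iUnion, mem_prod, mem_singleton_iff, exists_prop]
    constructor
    · intro hx
      exact ⟨i, ⟨x, hx⟩, rfl, hx⟩
    · rintro ⟨j, -, rfl, hx⟩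
      exact hx
  have h2 : IsCompact {x : ι × E | x.2 ∈ R x.1} := by
    rw [h]
    exact hfin.isCompact_biUnion fun i _ => isCompact_singleton.prod (hR i)
  exact isCompact_iff_compactSpace.1 h2

end Blocks

/-! ### Abstract part: symmetric functional closed relations -/

section Rel

variable {P : Type*} [TopologicalSpace P]

/-- A symmetric and functional relation which is closed. -/
structure Nice (S : P → P → Prop) : Prop where
  symm : ∀ x y, S x y → S y x
  func : ∀ x y z, S x y → S x z → y = z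
  closed : IsClosed {p : P × P | S p.1 p.2}

/-- The relation `S` is the symmetrization of `r`. -/
def SymmOf (r S : P → P → Prop) : Prop := ∀ x y, S x y ↔ r x y ∨ r y x

variable {r S : P → P → Prop}

omit [TopologicalSpace P] in
theorem quot_eq_iff (hs : ∀ x y, S x y → S y x) (hf : ∀ x y z, S x y → S x z → y = z)
    (h : SymmOf r S) (x y : P) : Quot.mk r x = Quot.mk r y ↔ x = y ∨ S x y := by
  constructor
  · intro hxy
    have hgen := Quot.eqvGen_exact hxy
    clear hxy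
    induction hgen with
    | rel x y hxy => exact Or.inr ((h x y).2 (Or.inl hxy))
    | refl x => exact Or.inl rfl
    | symm x y hxy ih =>
      rcases ih with h' | h'
      · exact Or.inl h'.symm
      · exact Or.inr (hs _ _ h')
    | trans x y z hxy hyz ih1 ih2 =>
      rcases ih1 with rfl | h1
      · exact ih2
      · rcases ih2 with rfl | h2
        · exact Or.inr h1
        · exact Or.inl (hf y x z (hs _ _ h1) h2)
  · rintro (rfl | h')
    · rfl
    · rcases (h x y).1 h' with h' | h'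
      · exact Quot.sound h'
      · exact (Quot.sound h').symm

variable [CompactSpace P] [T2Space P]

theorem isClosedMap_mk (hS : Nice S) (h : SymmOf r S) : IsClosedMap (Quot.mk r) := by
  intro C hC
  rw [← isQuotientMap_quot_mk.isClosed_preimage]
  have : Quot.mk r ⁻¹' (Quot.mk r '' C) =
      C ∪ Prod.snd '' ({p : P × P | S p.1 p.2} ∩ Prod.fst ⁻¹' C) := by
    ext y
    simp only [mem_preimage, mem_image, mem_union, mem_inter_iff, mem_ofPred_eq, Prod.exists,
      exists_eq_right]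
    constructor
    · rintro ⟨x, hx, hxy⟩
      rcases (quot_eq_iff hS.symm hS.func h x y).1 hxy with rfl | h'
      · exact Or.inl hx
      · exact Or.inr ⟨x, h', hx⟩
    · rintro (hy | ⟨x, h', hx⟩)
      · exact ⟨y, hy, rfl⟩
      · exact ⟨x, hx, (quot_eq_iff hS.symm hS.func h x y).2 (Or.inr h')⟩
  rw [this]
  refine hC.union ?_
  have hc : IsClosed ({p : P × P | S p.1 p.2} ∩ Prod.fst ⁻¹' C) :=
    hS.closed.inter (hC.preimage continuous_fst)
  exact (hc.isCompact.image continuous_snd).isClosed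

theorem isProperMap_mk (hS : Nice S) (h : SymmOf r S) : IsProperMap (Quot.mk r) := by
  rw [isProperMap_iff_isClosedMap_and_compact_fibers]
  refine ⟨continuous_quot_mk, isClosedMap_mk hS h, fun w => ?_⟩
  obtain ⟨x, rfl⟩ := Quot.exists_rep w
  have : Quot.mk r ⁻¹' {Quot.mk r x} = {x} ∪ Prod.snd '' ({p : P × P | S p.1 p.2} ∩
      Prod.fst ⁻¹' {x}) := by
    ext y
    constructor
    · intro hxy
      rcases (quot_eq_iff hS.symm hS.func h y x).1 hxy with rfl | h'
      · exact Or.inl rfl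
      · exact Or.inr ⟨(x, y), ⟨hS.symm _ _ h', rfl⟩, rfl⟩
    · rintro (rfl | ⟨⟨a, b⟩, ⟨h', rfl⟩, rfl⟩)
      · rfl
      · exact (quot_eq_iff hS.symm hS.func h b a).2 (Or.inr (hS.symm _ _ h'))
  rw [this]
  refine isCompact_singleton.union ?_
  have hc : IsClosed ({p : P × P | S p.1 p.2} ∩ Prod.fst ⁻¹' {x}) :=
    hS.closed.inter (isClosed_singleton.preimage continuous_fst)
  exact hc.isCompact.image continuous_snd

theorem t2Space_quot (hS : Nice S) (h : SymmOf r S) : T2Space (Quot r) := by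
  rw [t2_iff_isClosed_diagonal]
  have h1 : IsClosed ({p : P × P | p.1 = p.2} ∪ {p : P × P | S p.1 p.2}) :=
    (isClosed_eq continuous_fst continuous_snd).union hS.closed
  have h2 := ((isProperMap_mk hS h).prodMap (isProperMap_mk hS h)).isClosedMap _ h1
  convert h2 using 1
  ext ⟨a, b⟩
  simp only [mem_diagonal_iff, mem_image, mem_union, mem_ofPred_eq, Prod.exists, Prod.map_apply,
    Prod.mk.injEq]
  constructor
  · rintro rfl
    obtain ⟨x, rfl⟩ := Quot.exists_rep a
    exact ⟨x, x, Or.inl rfl, rfl, rfl⟩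
  · rintro ⟨x, y, hxy, rfl, rfl⟩
    exact (quot_eq_iff hS.symm hS.func h x y).2 hxy

/-- A saturated open set `π ⁻¹' N` which is contracted to a fibre gives a contractible `N`. -/
theorem contractible_of_lift (hS : Nice S) (h : SymmOf r S) (N : Set (Quot r)) (w : N)
    (c : I × (Quot.mk r ⁻¹' N) → Quot.mk r ⁻¹' N) (hc : Continuous c)
    (h0 : ∀ y, c (0, y) = y) (h1 : ∀ y, Quot.mk r (c (1, y)).1 = w.1)
    (hcomp : ∀ t (y y' : Quot.mk r ⁻¹' N), Quot.mk r y.1 = Quot.mk r y'.1 →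
      Quot.mk r (c (t, y)).1 = Quot.mk r (c (t, y')).1) : ContractibleSpace N := by
  have hq : IsProperMap (N.restrictPreimage (Quot.mk r)) :=
    (isProperMap_mk hS h).restrictPreimage N
  have hQ : IsProperMap (Prod.map (id : I → I) (N.restrictPreimage (Quot.mk r))) :=
    isProperMap_id.prodMap hq
  have hsurj : Function.Surjective (N.restrictPreimage (Quot.mk r)) := by
    rintro ⟨a, ha⟩
    obtain ⟨x, rfl⟩ := Quot.exists_rep a
    exact ⟨⟨x, ha⟩, rfl⟩
  have hquot : IsQuotientMap (Prod.map (id : I → I) (N.restrictPreimage (Quot.mk r))) :=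
    hQ.isClosedMap.isQuotientMap hQ.continuous (Function.surjective_id.prodMap hsurj)
  let g : C(I × (Quot.mk r ⁻¹' N), N) :=
    ⟨fun p => N.restrictPreimage (Quot.mk r) (c p), hq.continuous.comp hc⟩
  let f : C(I × (Quot.mk r ⁻¹' N), I × N) := ⟨_, hQ.continuous⟩
  have hf : IsQuotientMap f := hquot
  have hfac : Function.FactorsThrough g f := by
    rintro ⟨t, y⟩ ⟨t', y'⟩ hyy
    have h1 : t = t' := congrArg Prod.fst hyy
    have h2 : N.restrictPreimage (Quot.mk r) y = N.restrictPreimage (Quot.mk r) y' :=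
      congrArg Prod.snd hyy
    subst h1
    exact Subtype.ext (hcomp t y y' (congrArg Subtype.val h2))
  let H : C(I × N, N) := hf.lift g hfac
  have hH : ∀ t y, H (t, N.restrictPreimage (Quot.mk r) y) =
      N.restrictPreimage (Quot.mk r) (c (t, y)) := fun t y =>
    DFunLike.congr_fun (hf.lift_comp g hfac) (t, y)
  rw [contractible_iff_id_nullhomotopic]
  refine ⟨w, ⟨⟨H, fun a => ?_, fun a => ?_⟩⟩⟩
  · obtain ⟨y, rfl⟩ := hsurj a
    exact (hH 0 y).trans (by rw [h0]; rfl)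
  · obtain ⟨y, rfl⟩ := hsurj a
    exact (hH 1 y).trans (Subtype.ext (h1 y))

end Rel

/-! ### Locally star-shaped blocks -/

section Local

variable {ι E : Type*} [NormedAddCommGroup E] [NormedSpace ℝ E]

/-- `A` is locally star-shaped: the points of `A` near `x ∈ A` can be moved in `A` along a straight
segment to `x`. -/
def LocStar (A : Set E) : Prop :=
  ∀ x ∈ A, ∃ ρ > 0, ∀ y ∈ A, dist y x < ρ → ∀ t ∈ Icc (0 : ℝ) 1, y + t • (x - y) ∈ A

theorem eventually_of_exists {Q : ℝ → Prop} (hQ : ∀ ρ τ, τ ≤ ρ → Q ρ → Q τ)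
    (h : ∃ ρ > 0, Q ρ) : ∀ᶠ ρ in 𝓝[>] (0 : ℝ), Q ρ := by
  obtain ⟨ρ, hρ, h⟩ := h
  filter_upwards [Ioo_mem_nhdsGT hρ] with τ hτ using hQ ρ τ hτ.2.le h

theorem dist_mv (x y : E) {t : ℝ} (ht : t ∈ Icc (0 : ℝ) 1) :
    dist (y + t • (x - y)) x ≤ dist y x := by
  have : y + t • (x - y) - x = (1 - t) • (y - x) := by
    rw [sub_smul, one_smul, smul_sub, smul_sub]; abel
  rw [dist_eq_norm, this, norm_smul, Real.norm_eq_abs, abs_of_nonneg (by linarith [ht.2]),
    dist_eq_norm]
  exact mul_le_of_le_one_left (norm_nonneg _) (by linarith [ht.1])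

/-- The compatibility of `S` with the contractions. -/
def LocOK {R : ι → Set E} (S : Pt R → Pt R → Prop) (x : Pt R) (ρ : ℝ) : Prop :=
  ∀ y y' : Pt R, y ∈ bl R x ρ → S y y' → ∃ x' : Pt R, S x x' ∧ y' ∈ bl R x' ρ ∧
    ∀ t ∈ Icc (0 : ℝ) 1, ∀ z z' : Pt R, z.1 = (y.1.1, y.1.2 + t • (x.1.2 - y.1.2)) →
      z'.1 = (y'.1.1, y'.1.2 + t • (x'.1.2 - y'.1.2)) → S z z'

variable [TopologicalSpace ι] [DiscreteTopology ι]

theorem slc_quot (R : ι → Set E) (hfin : {i | (R i).Nonempty}.Finite)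
    (hR : ∀ i, IsCompact (R i)) (hstar : ∀ i, LocStar (R i)) {r S : Pt R → Pt R → Prop}
    (hS : Nice S) (h : SymmOf r S) (hloc : ∀ x, ∀ᶠ ρ in 𝓝[>] (0 : ℝ), LocOK S x ρ) :
    StronglyLocallyContractibleSpace (Quot r) := by
  have := compactSpace_pt R hfin hR
  constructor
  intro w
  rw [Filter.hasBasis_self]
  intro V hV
  -- the fibre
  set fib : Set (Pt R) := {z | Quot.mk r z = w} with hfib
  have hfibfin : fib.Finite := by
    obtain ⟨x, rfl⟩ := Quot.exists_rep w
    have : fib ⊆ {x} ∪ {x' | S x x'} := by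
      intro z hz
      rcases (quot_eq_iff hS.symm hS.func h z x).1 hz with h' | h'
      · exact Or.inl h'
      · exact Or.inr (hS.symm _ _ h')
    refine ((finite_singleton x).union ?_).subset this
    exact Set.Subsingleton.finite fun a ha b hb => hS.func x a b ha hb
  -- the radius
  have e1 : ∀ᶠ ρ in 𝓝[>] (0 : ℝ), ∀ z ∈ fib, bl R z ρ ⊆ Quot.mk r ⁻¹' V := by
    refine hfibfin.eventually_all.2 fun z hz => ?_
    refine eventually_of_exists (fun ρ τ hτ h => (bl_mono R z hτ).trans h) ?_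
    refine exists_bl_subset R z ?_
    exact (continuous_quot_mk (r := r)).continuousAt.preimage_mem_nhds
      (by rw [show Quot.mk r z = w from hz]; exact hV)
  have e2 : ∀ᶠ ρ in 𝓝[>] (0 : ℝ), ∀ z ∈ fib, ∀ y ∈ R z.1.1, dist y z.1.2 < ρ →
      ∀ t ∈ Icc (0 : ℝ) 1, y + t • (z.1.2 - y) ∈ R z.1.1 := by
    refine hfibfin.eventually_all.2 fun z hz => ?_
    exact eventually_of_exists (fun ρ τ hτ h y hy hd => h y hy (hd.trans_le hτ))
      (hstar z.1.1 z.1.2 z.2)
  have e3 : ∀ᶠ ρ in 𝓝[>] (0 : ℝ), ∀ z ∈ fib, LocOK S z ρ :=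
    hfibfin.eventually_all.2 fun z _ => hloc z
  have e4 : ∀ᶠ ρ in 𝓝[>] (0 : ℝ), ∀ z ∈ fib, ∀ z' ∈ fib, z ≠ z' →
      Disjoint (bl R z ρ) (bl R z' ρ) := by
    refine hfibfin.eventually_all.2 fun z _ => hfibfin.eventually_all.2 fun z' _ => ?_
    by_cases hzz : z = z'
    · exact Filter.Eventually.of_forall fun _ h => absurd hzz h
    obtain ⟨A, B, hA, hB, hzA, hzB, hAB⟩ := t2_separation hzz
    have f1 : ∀ᶠ ρ in 𝓝[>] (0 : ℝ), bl R z ρ ⊆ A :=
      eventually_of_exists (fun ρ τ hτ h => (bl_mono R z hτ).trans h)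
        (exists_bl_subset R z (hA.mem_nhds hzA))
    have f2 : ∀ᶠ ρ in 𝓝[>] (0 : ℝ), bl R z' ρ ⊆ B :=
      eventually_of_exists (fun ρ τ hτ h => (bl_mono R z' hτ).trans h)
        (exists_bl_subset R z' (hB.mem_nhds hzB))
    filter_upwards [f1, f2] with ρ h1 h2 _ using hAB.mono h1 h2
  obtain ⟨ρ, hV', hst, hlc, hdj, hρ⟩ :=
    (e1.and (e2.and (e3.and (e4.and (eventually_mem_nhdsWithin))))).exists
  -- the neighbourhood
  set U : Set (Pt R) := ⋃ z ∈ fib, bl R z ρ with hU
  have hUo : IsOpen U := isOpen_biUnion fun z _ => isOpen_bl R z ρ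
  have hsat : ∀ y y', y ∈ U → S y y' → y' ∈ U := by
    intro y y' hy hyy
    obtain ⟨z, hz, hyz⟩ := mem_iUnion₂.1 hy
    obtain ⟨z', hz', hy', -⟩ := hlc z hz y y' hyz hyy
    refine mem_iUnion₂.2 ⟨z', ?_, hy'⟩
    exact ((quot_eq_iff hS.symm hS.func h z z').2 (Or.inr hz')).symm.trans hz
  set N : Set (Quot r) := Quot.mk r '' U with hN
  have hNU : Quot.mk r ⁻¹' N = U := by
    refine Subset.antisymm ?_ (subset_preimage_image _ _)
    rintro y ⟨y', hy', hyy⟩
    rcases (quot_eq_iff hS.symm hS.func h y' y).1 hyy with rfl | h'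
    · exact hy'
    · exact hsat y' y hy' h'
  have hNo : IsOpen N := by
    rw [← isQuotientMap_quot_mk.isOpen_preimage, hNU]
    exact hUo
  have hwN : w ∈ N := by
    obtain ⟨x, rfl⟩ := Quot.exists_rep w
    exact ⟨x, mem_iUnion₂.2 ⟨x, rfl, mem_bl_self R x hρ⟩, rfl⟩
  refine ⟨N, hNo.mem_nhds hwN, ?_, ?_⟩
  swap
  · rintro _ ⟨y, hy, rfl⟩
    obtain ⟨z, hz, hyz⟩ := mem_iUnion₂.1 hy
    exact hV' z hz hyz
  -- the centres
  have hcen : ∀ y : (Quot.mk r ⁻¹' N : Set (Pt R)), ∃ z ∈ fib, y.1 ∈ bl R z ρ := by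
    rintro ⟨y, hy⟩
    rw [hNU] at hy
    obtain ⟨z, hz, hyz⟩ := mem_iUnion₂.1 hy
    exact ⟨z, hz, hyz⟩
  choose cen hcf hcb using hcen
  have hcu : ∀ (y : (Quot.mk r ⁻¹' N : Set (Pt R))) (z : Pt R), z ∈ fib → y.1 ∈ bl R z ρ →
      cen y = z := by
    intro y z hz hyz
    by_contra hne
    exact disjoint_left.1 (hdj _ (hcf y) z hz hne) (hcb y) hyz
  have hcc : Continuous cen := by
    rw [continuous_iff_continuousAt]
    intro y
    have : cen =ᶠ[𝓝 y] fun _ => cen y := by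
      have ho : IsOpen {y' : (Quot.mk r ⁻¹' N : Set (Pt R)) | y'.1 ∈ bl R (cen y) ρ} :=
        (isOpen_bl R (cen y) ρ).preimage continuous_subtype_val
      filter_upwards [ho.mem_nhds (hcb y)] with y' hy'
      exact hcu y' _ (hcf y) hy'
    exact (continuousAt_congr this).2 continuousAt_const
  -- the contraction
  have hmem : ∀ p : I × (Quot.mk r ⁻¹' N : Set (Pt R)),
      p.2.1.1.2 + (p.1 : ℝ) • ((cen p.2).1.2 - p.2.1.1.2) ∈ R p.2.1.1.1 := by
    rintro ⟨t, y⟩
    have h1 : y.1.1.1 = (cen y).1.1 := (hcb y).1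
    rw [h1]
    exact hst _ (hcf y) _ (h1 ▸ y.1.2) (hcb y).2 _ t.2
  let c0 : I × (Quot.mk r ⁻¹' N : Set (Pt R)) → Pt R := fun p =>
    ⟨(p.2.1.1.1, p.2.1.1.2 + (p.1 : ℝ) • ((cen p.2).1.2 - p.2.1.1.2)), hmem p⟩
  have hc0 : Continuous c0 := by
    refine Continuous.subtype_mk (Continuous.prodMk ?_ ?_) _
    · exact continuous_fst.comp (continuous_subtype_val.comp
        (continuous_subtype_val.comp continuous_snd))
    · have k1 : Continuous fun p : I × (Quot.mk r ⁻¹' N : Set (Pt R)) => p.2.1.1.2 :=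
        continuous_snd.comp (continuous_subtype_val.comp
          (continuous_subtype_val.comp continuous_snd))
      have k2 : Continuous fun p : I × (Quot.mk r ⁻¹' N : Set (Pt R)) => (cen p.2).1.2 :=
        continuous_snd.comp (continuous_subtype_val.comp (hcc.comp continuous_snd))
      have k3 : Continuous fun p : I × (Quot.mk r ⁻¹' N : Set (Pt R)) => (p.1 : ℝ) :=
        continuous_subtype_val.comp continuous_fst
      exact k1.add (k3.smul (k2.sub k1))
  have hc0b : ∀ p, c0 p ∈ bl R (cen p.2) ρ := fun p =>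
    ⟨(hcb p.2).1, (dist_mv _ _ p.1.2).trans_lt (hcb p.2).2⟩
  have hc0m : ∀ p, c0 p ∈ (Quot.mk r ⁻¹' N : Set (Pt R)) := fun p => by
    rw [hNU]
    exact mem_iUnion₂.2 ⟨cen p.2, hcf p.2, hc0b p⟩
  refine contractible_of_lift hS h N ⟨w, hwN⟩ (fun p => ⟨c0 p, hc0m p⟩)
    (hc0.subtype_mk _) ?_ ?_ ?_
  · intro y
    refine Subtype.ext (Subtype.ext (Prod.ext rfl ?_))
    simp [c0]
  · intro y
    have : c0 (1, y) = cen y := by
      refine Subtype.ext (Prod.ext (hcb y).1 ?_)
      simp [c0]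
    change Quot.mk r (c0 (1, y)) = w
    rw [this]
    exact hcf y
  · intro t y y' hyy
    change Quot.mk r (c0 (t, y)) = Quot.mk r (c0 (t, y'))
    rcases (quot_eq_iff hS.symm hS.func h _ _).1 hyy with h' | h'
    · rw [Subtype.ext h']
    · obtain ⟨x', hx', hy', hcomp⟩ := hlc _ (hcf y) _ _ (hcb y) h'
      have hx'f : x' ∈ fib :=
        ((quot_eq_iff hS.symm hS.func h _ x').2 (Or.inr hx')).symm.trans (hcf y)
      have hce : cen y' = x' := hcu y' x' hx'f hy'
      refine (quot_eq_iff hS.symm hS.func h _ _).2 (Or.inr ?_)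
      refine hcomp t t.2 _ _ rfl ?_
      simp only [c0, hce]

/-! ### The gluing lemma -/

variable {R : ι → Set E} {K : Type*} {s t : K → ι} {A : K → Set E} {f : K → E → E}

/-- The relation given by the gluing number `k`. -/
def relOf (R : ι → Set E) (s t : K → ι) (A : K → Set E) (f : K → E → E) (k : K)
    (x y : Pt R) : Prop :=
  x.1.1 = s k ∧ x.1.2 ∈ A k ∧ y.1.1 = t k ∧ y.1.2 = f k x.1.2

omit [NormedSpace ℝ E] in
theorem isClosed_relOf (hfc : ∀ k, Continuous (f k)) (hAc : ∀ k, IsClosed (A k)) (k : K) :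
    IsClosed {p : Pt R × Pt R | relOf R s t A f k p.1 p.2} := by
  have c1 : Continuous fun p : Pt R × Pt R => p.1.1.1 :=
    continuous_fst.comp (continuous_subtype_val.comp continuous_fst)
  have c2 : Continuous fun p : Pt R × Pt R => p.1.1.2 :=
    continuous_snd.comp (continuous_subtype_val.comp continuous_fst)
  have c3 : Continuous fun p : Pt R × Pt R => p.2.1.1 :=
    continuous_fst.comp (continuous_subtype_val.comp continuous_snd)
  have c4 : Continuous fun p : Pt R × Pt R => p.2.1.2 :=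
    continuous_snd.comp (continuous_subtype_val.comp continuous_snd)
  have d1 : IsClosed {p : Pt R × Pt R | p.1.1.1 = s k} :=
    (isClosed_discrete {s k}).preimage c1
  have d2 : IsClosed {p : Pt R × Pt R | p.1.1.2 ∈ A k} := (hAc k).preimage c2
  have d3 : IsClosed {p : Pt R × Pt R | p.2.1.1 = t k} :=
    (isClosed_discrete {t k}).preimage c3
  have d4 : IsClosed {p : Pt R × Pt R | p.2.1.2 = f k p.1.1.2} :=
    isClosed_eq c4 ((hfc k).comp c2)
  exact d1.inter (d2.inter (d3.inter d4))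

omit [NormedSpace ℝ E] in
/-- The symmetrization of the gluing relation is symmetric, functional and closed. -/
theorem nice_of_cells [Finite K] {r : Pt R → Pt R → Prop}
    (hr : ∀ x y : Pt R, r x y ↔
      ∃ k, x.1.1 = s k ∧ x.1.2 ∈ A k ∧ y.1.1 = t k ∧ y.1.2 = f k x.1.2)
    (hfc : ∀ k, Continuous (f k)) (hAc : ∀ k, IsClosed (A k))
    (hiso : ∀ k, ∀ x ∈ A k, ∀ y ∈ A k, dist (f k x) (f k y) = dist x y)
    (hd1 : ∀ k k', k ≠ k' → s k = s k' → Disjoint (A k) (A k'))
    (hd2 : ∀ k k', k ≠ k' → t k = t k' → Disjoint (f k '' A k) (f k' '' A k'))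
    (hd3 : ∀ k k', s k = t k' → Disjoint (A k) (f k' '' A k')) :
    Nice (fun x y : Pt R => r x y ∨ r y x) := by
  have hclr : IsClosed {p : Pt R × Pt R | r p.1 p.2} := by
    have : {p : Pt R × Pt R | r p.1 p.2} = ⋃ k, {p : Pt R × Pt R | relOf R s t A f k p.1 p.2} := by
      ext p
      simp only [mem_ofPred_eq, mem_iUnion, hr, relOf]
    rw [this]
    exact isClosed_iUnion_of_finite fun k => isClosed_relOf hfc hAc k
  refine ⟨fun x y h => h.symm, ?_, ?_⟩
  · rintro x y z (hxy | hxy) (hxz | hxz)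
    · obtain ⟨k, a1, a2, a3, a4⟩ := (hr _ _).1 hxy
      obtain ⟨k', b1, b2, b3, b4⟩ := (hr _ _).1 hxz
      have hk : k = k' := by
        by_contra hne
        exact disjoint_left.1 (hd1 k k' hne (a1.symm.trans b1)) a2 b2
      subst hk
      exact Subtype.ext (Prod.ext (a3.trans b3.symm) (a4.trans b4.symm))
    · obtain ⟨k, a1, a2, a3, a4⟩ := (hr _ _).1 hxy
      obtain ⟨k', b1, b2, b3, b4⟩ := (hr _ _).1 hxz
      exact (disjoint_left.1 (hd3 k k' (a1.symm.trans b3)) a2 ⟨_, b2, b4.symm⟩).elim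
    · obtain ⟨k, a1, a2, a3, a4⟩ := (hr _ _).1 hxy
      obtain ⟨k', b1, b2, b3, b4⟩ := (hr _ _).1 hxz
      exact (disjoint_left.1 (hd3 k' k (b1.symm.trans a3)) b2 ⟨_, a2, a4.symm⟩).elim
    · obtain ⟨k, a1, a2, a3, a4⟩ := (hr _ _).1 hxy
      obtain ⟨k', b1, b2, b3, b4⟩ := (hr _ _).1 hxz
      have hk : k = k' := by
        by_contra hne
        exact disjoint_left.1 (hd2 k k' hne (a3.symm.trans b3)) ⟨_, a2, a4.symm⟩
          ⟨_, b2, b4.symm⟩
      subst hk
      refine Subtype.ext (Prod.ext (a1.trans b1.symm) ?_)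
      have := hiso k _ a2 _ b2
      rw [← a4, ← b4, dist_self] at this
      exact dist_eq_zero.1 this.symm
  · exact hclr.union (hclr.preimage continuous_swap)

/-- **Gluing lemma.**  The blocks `R i` are finitely many compact, locally star-shaped sets; the
relation `r` glues, for each `k` in a finite index set, the point `x` of the cell `A k` of the block
number `s k` to the point `f k x` of the block number `t k`; the maps `f k` are affine, and
isometric on `A k`; the cells are closed and locally star-shaped, and all the cells `A k` and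
`f k '' A k` are pairwise disjoint. -/
theorem glue_main [Finite K] (hfin : {i | (R i).Nonempty}.Finite)
    (hR : ∀ i, IsCompact (R i)) (hstar : ∀ i, LocStar (R i)) {r : Pt R → Pt R → Prop}
    (hr : ∀ x y : Pt R, r x y ↔
      ∃ k, x.1.1 = s k ∧ x.1.2 ∈ A k ∧ y.1.1 = t k ∧ y.1.2 = f k x.1.2)
    (hfc : ∀ k, Continuous (f k))
    (hfa : ∀ k x y (c : ℝ), f k (y + c • (x - y)) = f k y + c • (f k x - f k y))
    (hAc : ∀ k, IsClosed (A k)) (hAs : ∀ k, LocStar (A k))
    (hiso : ∀ k, ∀ x ∈ A k, ∀ y ∈ A k, dist (f k x) (f k y) = dist x y)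
    (hd1 : ∀ k k', k ≠ k' → s k = s k' → Disjoint (A k) (A k'))
    (hd2 : ∀ k k', k ≠ k' → t k = t k' → Disjoint (f k '' A k) (f k' '' A k'))
    (hd3 : ∀ k k', s k = t k' → Disjoint (A k) (f k' '' A k')) :
    CompactSpace (Quot r) ∧ T2Space (Quot r) ∧ StronglyLocallyContractibleSpace (Quot r) := by
  have hP := compactSpace_pt R hfin hR
  let S : Pt R → Pt R → Prop := fun x y => r x y ∨ r y x
  have hsymm : SymmOf r S := fun x y => Iff.rfl
  have hS : Nice S := nice_of_cells hr hfc hAc hiso hd1 hd2 hd3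
  refine ⟨inferInstance, t2Space_quot hS hsymm, ?_⟩
  refine slc_quot R hfin hR hstar hS hsymm fun x => ?_
  -- the cells
  let C1 : K → Set (Pt R) := fun k => Prod.fst '' {p : Pt R × Pt R | relOf R s t A f k p.1 p.2}
  let C2 : K → Set (Pt R) := fun k => Prod.snd '' {p : Pt R × Pt R | relOf R s t A f k p.1 p.2}
  have hC1 : ∀ k, IsClosed (C1 k) := fun k =>
    ((isClosed_relOf hfc hAc k).isCompact.image continuous_fst).isClosed
  have hC2 : ∀ k, IsClosed (C2 k) := fun k =>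
    ((isClosed_relOf hfc hAc k).isCompact.image continuous_snd).isClosed
  have e1 : ∀ᶠ ρ in 𝓝[>] (0 : ℝ), ∀ k, x ∉ C1 k → Disjoint (bl R x ρ) (C1 k) := by
    refine Filter.eventually_all.2 fun k => ?_
    by_cases hx : x ∈ C1 k
    · exact Filter.Eventually.of_forall fun _ h => absurd hx h
    have := eventually_of_exists (Q := fun ρ => bl R x ρ ⊆ (C1 k)ᶜ)
      (fun ρ τ hτ h => (bl_mono R x hτ).trans h)
      (exists_bl_subset R x ((hC1 k).isOpen_compl.mem_nhds hx))
    filter_upwards [this] with ρ h _ using disjoint_left.2 fun y hy => h hy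
  have e2 : ∀ᶠ ρ in 𝓝[>] (0 : ℝ), ∀ k, x ∉ C2 k → Disjoint (bl R x ρ) (C2 k) := by
    refine Filter.eventually_all.2 fun k => ?_
    by_cases hx : x ∈ C2 k
    · exact Filter.Eventually.of_forall fun _ h => absurd hx h
    have := eventually_of_exists (Q := fun ρ => bl R x ρ ⊆ (C2 k)ᶜ)
      (fun ρ τ hτ h => (bl_mono R x hτ).trans h)
      (exists_bl_subset R x ((hC2 k).isOpen_compl.mem_nhds hx))
    filter_upwards [this] with ρ h _ using disjoint_left.2 fun y hy => h hy
  have e3 : ∀ᶠ ρ in 𝓝[>] (0 : ℝ), ∀ k, x.1.2 ∈ A k → ∀ y ∈ A k, dist y x.1.2 < ρ →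
      ∀ c ∈ Icc (0 : ℝ) 1, y + c • (x.1.2 - y) ∈ A k := by
    refine Filter.eventually_all.2 fun k => ?_
    by_cases hx : x.1.2 ∈ A k
    · have := eventually_of_exists (fun ρ τ hτ h y hy hd => h y hy (hd.trans_le hτ))
        (hAs k x.1.2 hx)
      filter_upwards [this] with ρ h _ using h
    · exact Filter.Eventually.of_forall fun _ h => absurd h hx
  have e4 : ∀ᶠ ρ in 𝓝[>] (0 : ℝ), ∀ k, ∀ a ∈ A k, f k a = x.1.2 → ∀ y ∈ A k, dist y a < ρ →
      ∀ c ∈ Icc (0 : ℝ) 1, y + c • (a - y) ∈ A k := by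
    refine Filter.eventually_all.2 fun k => ?_
    by_cases hx : ∃ a ∈ A k, f k a = x.1.2
    · obtain ⟨a, ha, hfa'⟩ := hx
      have := eventually_of_exists (fun ρ τ hτ h y hy hd => h y hy (hd.trans_le hτ))
        (hAs k a ha)
      filter_upwards [this] with ρ h a' ha' hfa''
      have : a' = a := by
        have h1 := hiso k a' ha' a ha
        rw [hfa', hfa'', dist_self] at h1
        exact dist_eq_zero.1 h1.symm
      rw [this]
      exact h
    · exact Filter.Eventually.of_forall fun _ a ha hfa' => absurd ⟨a, ha, hfa'⟩ hx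
  filter_upwards [e1, e2, e3, e4, eventually_mem_nhdsWithin] with ρ h1 h2 h3 h4 hρ
  rintro y y' hy (hyy | hyy)
  · obtain ⟨k, a1, a2, a3, a4⟩ := (hr _ _).1 hyy
    have hx : x ∈ C1 k := by
      by_contra hne
      exact disjoint_left.1 (h1 k hne) hy ⟨(y, y'), ⟨a1, a2, a3, a4⟩, rfl⟩
    obtain ⟨⟨x0, x'⟩, ⟨b1, b2, b3, b4⟩, hx0⟩ := hx
    have hx0' : x0 = x := hx0
    subst hx0'
    refine ⟨x', Or.inl ((hr _ _).2 ⟨k, b1, b2, b3, b4⟩), ⟨a3.trans b3.symm, ?_⟩, ?_⟩
    · rw [a4, b4, hiso k _ a2 _ b2]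
      exact hy.2
    · intro c hc z z' hz hz'
      have hz1 : z.1.1 = y.1.1 := by rw [hz]
      have hz2 : z.1.2 = y.1.2 + c • (x0.1.2 - y.1.2) := by rw [hz]
      have hz1' : z'.1.1 = y'.1.1 := by rw [hz']
      have hz2' : z'.1.2 = y'.1.2 + c • (x'.1.2 - y'.1.2) := by rw [hz']
      refine Or.inl ((hr _ _).2 ⟨k, hz1.trans a1, ?_, hz1'.trans a3, ?_⟩)
      · rw [hz2]
        exact h3 k b2 _ a2 hy.2 c hc
      · rw [hz2', hz2, hfa, ← a4, ← b4]
  · obtain ⟨k, a1, a2, a3, a4⟩ := (hr _ _).1 hyy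
    have hx : x ∈ C2 k := by
      by_contra hne
      exact disjoint_left.1 (h2 k hne) hy ⟨(y', y), ⟨a1, a2, a3, a4⟩, rfl⟩
    obtain ⟨⟨x', x0⟩, ⟨b1, b2, b3, b4⟩, hx0⟩ := hx
    have hx0' : x0 = x := hx0
    subst hx0'
    have hd : dist y'.1.2 x'.1.2 = dist y.1.2 x0.1.2 := by
      rw [a4, b4, hiso k _ a2 _ b2]
    refine ⟨x', Or.inr ((hr _ _).2 ⟨k, b1, b2, b3, b4⟩), ⟨a1.trans b1.symm, ?_⟩, ?_⟩
    · rw [hd]
      exact hy.2
    · intro c hc z z' hz hz'
      have hz1 : z.1.1 = y.1.1 := by rw [hz]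
      have hz2 : z.1.2 = y.1.2 + c • (x0.1.2 - y.1.2) := by rw [hz]
      have hz1' : z'.1.1 = y'.1.1 := by rw [hz']
      have hz2' : z'.1.2 = y'.1.2 + c • (x'.1.2 - y'.1.2) := by rw [hz']
      refine Or.inr ((hr _ _).2 ⟨k, hz1'.trans a1, ?_, hz1.trans a3, ?_⟩)
      · rw [hz2']
        exact h4 k x'.1.2 b2 b4.symm _ a2 (hd ▸ hy.2) c hc
      · rw [hz2', hz2, hfa, ← a4, ← b4]

end Local

end Vale.Agent.P215.H562
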