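import Vale.Agent.P215.H562.Glue

/-!
# Closed locally star-shaped sets

Stability properties of the sets which are closed and locally star-shaped, phrased for predicates.
-/

noncomputable section

namespace Vale.Agent.P215.H562

open Set Topology

variable {E : Type*} [NormedAddCommGroup E] [NormedSpace ℝ E]

/-- The predicate `p` defines a closed, locally star-shaped set. -/
structure Poly (p : E → Prop) : Prop where
  closed : IsClosed {x | p x}
  star : LocStar {x | p x}

/-- `f` is continuous and affine. -/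
structure Aff (f : E → ℝ) : Prop where
  cont : Continuous f
  aff : ∀ x y (c : ℝ), f (y + c • (x - y)) = f y + c * (f x - f y)

theorem Aff.const (a : ℝ) : Aff fun _ : E => a := ⟨continuous_const, by intros; simp⟩

theorem Aff.clm (f : E →L[ℝ] ℝ) : Aff f := ⟨f.continuous, by intros; simp⟩

theorem Poly.le {f g : E → ℝ} (hf : Aff f) (hg : Aff g) : Poly fun x => f x ≤ g x := by
  refine ⟨isClosed_le hf.cont hg.cont, fun x hx => ⟨1, one_pos, fun y hy _ t ht => ?_⟩⟩
  have hx' : f x ≤ g x := hx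
  have hy' : f y ≤ g y := hy
  change f _ ≤ g _
  rw [hf.aff, hg.aff]
  nlinarith [ht.1, ht.2, mul_nonneg ht.1 (sub_nonneg.2 hx'),
    mul_nonneg (sub_nonneg.2 ht.2) (sub_nonneg.2 hy')]

theorem Poly.and {p q : E → Prop} (hp : Poly p) (hq : Poly q) : Poly fun x => p x ∧ q x := by
  refine ⟨hp.closed.inter hq.closed, fun x hx => ?_⟩
  obtain ⟨r1, hr1, h1⟩ := hp.star x hx.1
  obtain ⟨r2, hr2, h2⟩ := hq.star x hx.2
  exact ⟨min r1 r2, lt_min hr1 hr2, fun y hy hd t ht =>
    ⟨h1 y hy.1 (hd.trans_le (min_le_left _ _)) t ht,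
      h2 y hy.2 (hd.trans_le (min_le_right _ _)) t ht⟩⟩

theorem Poly.or {p q : E → Prop} (hp : Poly p) (hq : Poly q) : Poly fun x => p x ∨ q x := by
  refine ⟨hp.closed.union hq.closed, fun x hx => ?_⟩
  have key : ∀ {p : E → Prop}, Poly p → ∀ x, ∃ r > 0, ∀ y, p y → dist y x < r →
      ∀ t ∈ Icc (0 : ℝ) 1, p (y + t • (x - y)) := by
    intro p hp x
    by_cases hx : p x
    · obtain ⟨r, hr, h⟩ := hp.star x hx
      exact ⟨r, hr, fun y hy hd t ht => h y hy hd t ht⟩
    · obtain ⟨r, hr, h⟩ := Metric.mem_nhds_iff.1 (hp.closed.isOpen_compl.mem_nhds hx)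
      exact ⟨r, hr, fun y hy hd t ht => (h hd hy).elim⟩
  obtain ⟨r1, hr1, h1⟩ := key hp x
  obtain ⟨r2, hr2, h2⟩ := key hq x
  refine ⟨min r1 r2, lt_min hr1 hr2, fun y hy hd t ht => ?_⟩
  rcases hy with hy | hy
  · exact Or.inl (h1 y hy (hd.trans_le (min_le_left _ _)) t ht)
  · exact Or.inr (h2 y hy (hd.trans_le (min_le_right _ _)) t ht)

theorem Poly.prop (p : Prop) : Poly fun _ : E => p := by
  by_cases hp : p
  · simp only [hp]
    refine ⟨?_, fun x _ => ⟨1, one_pos, fun y _ _ t _ => trivial⟩⟩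
    simp
  · simp only [hp]
    refine ⟨?_, fun x hx => absurd hx id⟩
    simp

theorem Poly.congr {p q : E → Prop} (hp : Poly p) (h : ∀ x, q x ↔ p x) : Poly q := by
  have : q = p := funext fun x => propext (h x)
  rwa [this]

theorem Poly.eq {f g : E → ℝ} (hf : Aff f) (hg : Aff g) : Poly fun x => f x = g x :=
  ((Poly.le hf hg).and (Poly.le hg hf)).congr fun _ => le_antisymm_iff

theorem Poly.ball {p : ℕ → E → Prop} (hp : ∀ j, Poly (p j)) (n : ℕ) :
    Poly fun x => ∀ j < n, p j x := by
  induction n with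
  | zero => exact (Poly.prop True).congr fun x => by simp
  | succ n ih => exact (ih.and (hp n)).congr fun x => Nat.forall_lt_succ_right

/-- Membership in a closed interval. -/
theorem Poly.icc {f : E → ℝ} (hf : Aff f) (a b : ℝ) : Poly fun x => f x ∈ Icc a b :=
  ((Poly.le (Aff.const a) hf).and (Poly.le hf (Aff.const b))).congr fun _ => Iff.rfl

/-- Non-membership in an open interval. -/
theorem Poly.not_ioo {f : E → ℝ} (hf : Aff f) (a b : ℝ) : Poly fun x => f x ∉ Ioo a b :=
  ((Poly.le hf (Aff.const a)).or (Poly.le (Aff.const b) hf)).congr fun x => by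
    rw [mem_Ioo, not_and_or, not_lt, not_lt]

end Vale.Agent.P215.H562
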