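import Vale.Agent.P215.H562.Cells

/-!
# Explicit framed discs, part A: piecewise linear functions of one and two variables
-/

noncomputable section

namespace Vale.Agent.P215.H562.Sane

open Set

/-! ### The parametrisation of the square `[0, L]²` by `[-1, 1]²` -/

/-- first coordinate -/
def fx (L x : ℝ) : ℝ := L / 2 * (x + 1)

/-- second coordinate -/
def fy (L y : ℝ) : ℝ := max (2 + 2 * y) (3 + (2 * y - 1) * (L - 3))

/-- inverse of the first coordinate -/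
def gx (L z : ℝ) : ℝ := 2 * z / L - 1

/-- inverse of the second coordinate -/
def gy (L z : ℝ) : ℝ := min ((z - 2) / 2) (((z - 3) / (L - 3) + 1) / 2)

theorem continuous_fx (L : ℝ) : Continuous (fx L) := by unfold fx; fun_prop
theorem continuous_fy (L : ℝ) : Continuous (fy L) := by unfold fy; fun_prop
theorem continuous_gx (L : ℝ) : Continuous (gx L) := by unfold gx; fun_prop
theorem continuous_gy (L : ℝ) : Continuous (gy L) := by unfold gy; fun_prop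

variable {L : ℝ}

theorem fx_gx (hL : 8 ≤ L) (z : ℝ) : fx L (gx L z) = z := by
  unfold fx gx
  have : L ≠ 0 := by linarith
  field_simp
  ring

theorem gx_fx (hL : 8 ≤ L) (x : ℝ) : gx L (fx L x) = x := by
  unfold fx gx
  have : L ≠ 0 := by linarith
  field_simp
  ring

theorem fy_strictMono (hL : 8 ≤ L) : StrictMono (fy L) := by
  intro y y' h
  unfold fy
  exact max_lt_max (by linarith) (by nlinarith)

theorem fy_gy (hL : 8 ≤ L) (z : ℝ) : fy L (gy L z) = z := by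
  unfold fy gy
  have h3 : 0 < L - 3 := by linarith
  rcases le_total ((z - 2) / 2) (((z - 3) / (L - 3) + 1) / 2) with h | h
  · rw [min_eq_left h, max_eq_left]
    · ring
    · have h1 : z - 3 ≤ (z - 3) / (L - 3) := by linarith
      have h2 : (z - 3) * (L - 3) ≤ z - 3 := (le_div_iff₀ h3).1 h1
      nlinarith
  · rw [min_eq_right h, max_eq_right]
    · field_simp
      ring
    · have h1 : (z - 3) / (L - 3) ≤ z - 3 := by linarith
      have e : 3 + (2 * (((z - 3) / (L - 3) + 1) / 2) - 1) * (L - 3) = z := by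
        field_simp
        ring
      rw [e]
      linarith

theorem gy_fy (hL : 8 ≤ L) (y : ℝ) : gy L (fy L y) = y :=
  (fy_strictMono hL).injective (fy_gy hL _)

theorem fy_half {y : ℝ} (hL : 8 ≤ L) (hy : y ≤ 1 / 2) : fy L y = 2 + 2 * y := by
  unfold fy
  exact max_eq_left (by nlinarith)

theorem fy_one (hL : 8 ≤ L) : fy L 1 = L := by
  unfold fy
  rw [max_eq_right (by linarith)]
  ring

theorem fy_neg_one (hL : 8 ≤ L) : fy L (-1) = 0 := by
  rw [fy_half hL (by norm_num)]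
  norm_num

theorem fx_one : fx L 1 = L := by unfold fx; ring
theorem fx_neg_one : fx L (-1) = 0 := by unfold fx; ring

theorem fx_mem (hL : 8 ≤ L) {x : ℝ} (hx : x ∈ Icc (-1 : ℝ) 1) : fx L x ∈ Icc 0 L := by
  unfold fx
  obtain ⟨h1, h2⟩ := hx
  constructor <;> nlinarith

theorem fy_mem (hL : 8 ≤ L) {y : ℝ} (hy : y ∈ Icc (-1 : ℝ) 1) : fy L y ∈ Icc 0 L := by
  have h1 := (fy_strictMono hL).monotone hy.1
  have h2 := (fy_strictMono hL).monotone hy.2
  rw [fy_neg_one hL] at h1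
  rw [fy_one hL] at h2
  exact ⟨h1, h2⟩

theorem gx_mem (hL : 8 ≤ L) {z : ℝ} (hz : z ∈ Icc 0 L) : gx L z ∈ Icc (-1 : ℝ) 1 := by
  unfold gx
  obtain ⟨h1, h2⟩ := hz
  have hL' : 0 < L := by linarith
  constructor
  · have : 0 ≤ 2 * z / L := by positivity
    linarith
  · have : 2 * z / L ≤ 2 := by
      rw [div_le_iff₀ hL']
      linarith
    linarith

theorem gy_mem (hL : 8 ≤ L) {z : ℝ} (hz : z ∈ Icc 0 L) : gy L z ∈ Icc (-1 : ℝ) 1 := by
  constructor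
  · rw [← (fy_strictMono hL).le_iff_le, fy_neg_one hL, fy_gy hL]
    exact hz.1
  · rw [← (fy_strictMono hL).le_iff_le, fy_one hL, fy_gy hL]
    exact hz.2

theorem fx_inj (hL : 8 ≤ L) {x x' : ℝ} (h : fx L x = fx L x') : x = x' := by
  rw [← gx_fx hL x, h, gx_fx hL]

theorem fy_inj (hL : 8 ≤ L) {y y' : ℝ} (h : fy L y = fy L y') : y = y' :=
  (fy_strictMono hL).injective h

/-! ### The arc `∂[0, L]²` minus the open left segment -/

/-- first coordinate, unit speed -/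
def P1 (L s : ℝ) : ℝ := max 0 (min L (min (L + 2 + s) (2 * L - 2 - s)))

/-- second coordinate, unit speed -/
def P2 (L s : ℝ) : ℝ := max (min (min (2 + s) L) (3 * L - 2 - s)) (max 0 (-s - 2 - L))

theorem continuous_P1 (L : ℝ) : Continuous (P1 L) := by unfold P1; fun_prop
theorem continuous_P2 (L : ℝ) : Continuous (P2 L) := by unfold P2; fun_prop

/-- The five sides of the arc. -/
theorem P_cases (hL : 8 ≤ L) {s : ℝ} (hs : s ∈ Icc (-L - 3) (3 * L - 5)) :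
    (s ≤ -L - 2 ∧ P1 L s = 0 ∧ P2 L s = -s - 2 - L) ∨
    (-L - 2 ≤ s ∧ s ≤ -2 ∧ P1 L s = L + 2 + s ∧ P2 L s = 0) ∨
    (-2 ≤ s ∧ s ≤ L - 2 ∧ P1 L s = L ∧ P2 L s = 2 + s) ∨
    (L - 2 ≤ s ∧ s ≤ 2 * L - 2 ∧ P1 L s = 2 * L - 2 - s ∧ P2 L s = L) ∨
    (2 * L - 2 ≤ s ∧ P1 L s = 0 ∧ P2 L s = 3 * L - 2 - s) := by
  obtain ⟨h1, h2⟩ := hs
  unfold P1 P2
  rcases le_total s (-L - 2) with a | a
  · left
    refine ⟨a, ?_, ?_⟩
    · rw [min_eq_left (by linarith : L + 2 + s ≤ 2 * L - 2 - s), min_eq_right (by linarith),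
        max_eq_left (by linarith)]
    · rw [min_eq_left (by linarith : 2 + s ≤ L), min_eq_left (by linarith),
        max_eq_right (by linarith : (0 : ℝ) ≤ -s - 2 - L), max_eq_right (by linarith)]
  right
  rcases le_total s (-2) with b | b
  · left
    refine ⟨a, b, ?_, ?_⟩
    · rw [min_eq_left (by linarith : L + 2 + s ≤ 2 * L - 2 - s), min_eq_right (by linarith),
        max_eq_right (by linarith)]
    · rw [min_eq_left (by linarith : 2 + s ≤ L), min_eq_left (by linarith),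
        max_eq_left (by linarith : -s - 2 - L ≤ 0), max_eq_right (by linarith)]
  right
  rcases le_total s (L - 2) with c | c
  · left
    refine ⟨b, c, ?_, ?_⟩
    · rw [min_eq_left (le_min (by linarith) (by linarith)), max_eq_right (by linarith)]
    · rw [min_eq_left (by linarith : 2 + s ≤ L), min_eq_left (by linarith),
        max_eq_left (by linarith : -s - 2 - L ≤ 0), max_eq_left (by linarith)]
  right
  rcases le_total s (2 * L - 2) with d | d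
  · left
    refine ⟨c, d, ?_, ?_⟩
    · rw [min_eq_right (by linarith : 2 * L - 2 - s ≤ L + 2 + s), min_eq_right (by linarith),
        max_eq_right (by linarith)]
    · rw [min_eq_right (by linarith : L ≤ 2 + s), min_eq_left (by linarith),
        max_eq_left (by linarith : -s - 2 - L ≤ 0), max_eq_left (by linarith)]
  right
  refine ⟨d, ?_, ?_⟩
  · rw [min_eq_right (by linarith : 2 * L - 2 - s ≤ L + 2 + s), min_eq_right (by linarith),
      max_eq_left (by linarith)]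
  · rw [min_eq_right (by linarith : L ≤ 2 + s), min_eq_right (by linarith),
      max_eq_left (by linarith : -s - 2 - L ≤ 0), max_eq_left (by linarith)]

theorem P_inj (hL : 8 ≤ L) {s t : ℝ} (hs : s ∈ Icc (-L - 3) (3 * L - 5))
    (ht : t ∈ Icc (-L - 3) (3 * L - 5)) (h1 : P1 L s = P1 L t) (h2 : P2 L s = P2 L t) : s = t := by
  obtain ⟨s1, s2⟩ := hs
  obtain ⟨t1, t2⟩ := ht
  rcases P_cases hL ⟨s1, s2⟩ with ⟨a, b, c⟩ | ⟨a, a', b, c⟩ | ⟨a, a', b, c⟩ | ⟨a, a', b, c⟩ |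
    ⟨a, b, c⟩ <;>
  rcases P_cases hL ⟨t1, t2⟩ with ⟨d, e, f⟩ | ⟨d, d', e, f⟩ | ⟨d, d', e, f⟩ | ⟨d, d', e, f⟩ |
    ⟨d, e, f⟩ <;>
  rw [b, e] at h1 <;> rw [c, f] at h2 <;> linarith

/-- reparametrisation of `[-3/4, 3/4]` -/
def sp (L r : ℝ) : ℝ :=
  max (2 * r) (1 + 4 * (r - 1 / 2) * (3 * L - 6)) + min 0 (-1 + 4 * (r + 1 / 2) * (L + 2) - 2 * r)

theorem continuous_sp (L : ℝ) : Continuous (sp L) := by unfold sp; fun_prop

theorem sp_cases (hL : 8 ≤ L) (r : ℝ) :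
    (r ≤ -1 / 2 ∧ sp L r = -1 + 4 * (r + 1 / 2) * (L + 2)) ∨
    (-1 / 2 ≤ r ∧ r ≤ 1 / 2 ∧ sp L r = 2 * r) ∨
    (1 / 2 ≤ r ∧ sp L r = 1 + 4 * (r - 1 / 2) * (3 * L - 6)) := by
  unfold sp
  rcases le_total r (-1 / 2) with a | a
  · left
    refine ⟨a, ?_⟩
    rw [max_eq_left (by nlinarith), min_eq_right (by nlinarith)]
    ring
  right
  rcases le_total r (1 / 2) with b | b
  · left
    refine ⟨a, b, ?_⟩
    rw [max_eq_left (by nlinarith), min_eq_left (by nlinarith)]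
    ring
  right
  refine ⟨b, ?_⟩
  rw [max_eq_right (by nlinarith), min_eq_left (by nlinarith)]
  ring

theorem sp_strictMono (hL : 8 ≤ L) : StrictMono (sp L) := by
  intro r t h
  rcases sp_cases hL r with ⟨a, b⟩ | ⟨a, a', b⟩ | ⟨a, b⟩ <;>
  rcases sp_cases hL t with ⟨d, e⟩ | ⟨d, d', e⟩ | ⟨d, e⟩ <;>
  rw [b, e] <;> nlinarith

theorem sp_half (hL : 8 ≤ L) {r : ℝ} (h1 : -1 / 2 ≤ r) (h2 : r ≤ 1 / 2) : sp L r = 2 * r := by
  rcases sp_cases hL r with ⟨a, b⟩ | ⟨a, a', b⟩ | ⟨a, b⟩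
  · have : r = -1 / 2 := le_antisymm a h1
    rw [b, this]; ring
  · exact b
  · have : r = 1 / 2 := le_antisymm h2 a
    rw [b, this]; ring

theorem sp_right (hL : 8 ≤ L) : sp L (3 / 4) = 3 * L - 5 := by
  rcases sp_cases hL (3 / 4) with ⟨a, b⟩ | ⟨a, a', b⟩ | ⟨a, b⟩
  · norm_num at a
  · norm_num at a'
  · rw [b]; ring

theorem sp_left (hL : 8 ≤ L) : sp L (-3 / 4) = -L - 3 := by
  rcases sp_cases hL (-3 / 4) with ⟨a, b⟩ | ⟨a, a', b⟩ | ⟨a, b⟩
  · rw [b]; ring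
  · norm_num at a
  · norm_num at a

theorem sp_mem (hL : 8 ≤ L) {r : ℝ} (hr : r ∈ Icc (-3 / 4 : ℝ) (3 / 4)) :
    sp L r ∈ Icc (-L - 3) (3 * L - 5) := by
  have h1 := (sp_strictMono hL).monotone hr.1
  have h2 := (sp_strictMono hL).monotone hr.2
  rw [sp_left hL] at h1
  rw [sp_right hL] at h2
  exact ⟨h1, h2⟩

/-- the arc, parametrised by `[-3/4, 3/4]` -/
def om (L r : ℝ) : ℝ × ℝ := (P1 L (sp L r), P2 L (sp L r))

theorem continuous_om (L : ℝ) : Continuous (om L) :=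
  ((continuous_P1 L).comp (continuous_sp L)).prodMk ((continuous_P2 L).comp (continuous_sp L))

theorem om_inj (hL : 8 ≤ L) {r t : ℝ} (hr : r ∈ Icc (-3 / 4 : ℝ) (3 / 4))
    (ht : t ∈ Icc (-3 / 4 : ℝ) (3 / 4)) (h : om L r = om L t) : r = t :=
  (sp_strictMono hL).injective (P_inj hL (sp_mem hL hr) (sp_mem hL ht)
    (congrArg Prod.fst h) (congrArg Prod.snd h))

theorem om_mem (hL : 8 ≤ L) {r : ℝ} (hr : r ∈ Icc (-3 / 4 : ℝ) (3 / 4)) :
    om L r ∈ H788.bdSq L := by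
  have hs := sp_mem hL hr
  obtain ⟨s1, s2⟩ := hs
  change ((P1 L (sp L r) ∈ Icc 0 L) ∧ (P2 L (sp L r) ∈ Icc 0 L)) ∧
    (P1 L (sp L r) = 0 ∨ P1 L (sp L r) = L ∨ P2 L (sp L r) = 0 ∨ P2 L (sp L r) = L)
  rcases P_cases hL ⟨s1, s2⟩ with ⟨a, b, c⟩ | ⟨a, a', b, c⟩ | ⟨a, a', b, c⟩ | ⟨a, a', b, c⟩ |
    ⟨a, b, c⟩ <;> rw [b, c]
  · exact ⟨⟨⟨by linarith, by linarith⟩, ⟨by linarith, by linarith⟩⟩, Or.inl rfl⟩
  · exact ⟨⟨⟨by linarith, by linarith⟩, ⟨by linarith, by linarith⟩⟩, Or.inr (Or.inr (Or.inl rfl))⟩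
  · exact ⟨⟨⟨by linarith, by linarith⟩, ⟨by linarith, by linarith⟩⟩, Or.inr (Or.inl rfl)⟩
  · exact ⟨⟨⟨by linarith, by linarith⟩, ⟨by linarith, by linarith⟩⟩, Or.inr (Or.inr (Or.inr rfl))⟩
  · exact ⟨⟨⟨by linarith, by linarith⟩, ⟨by linarith, by linarith⟩⟩, Or.inl rfl⟩

theorem om_half (hL : 8 ≤ L) {r : ℝ} (h1 : -1 / 2 ≤ r) (h2 : r ≤ 1 / 2) :
    om L r = (L, 2 + 2 * r) := by
  have hs : sp L r ∈ Icc (-L - 3) (3 * L - 5) := sp_mem hL ⟨by linarith, by linarith⟩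
  have e := sp_half hL h1 h2
  unfold om
  rcases P_cases hL hs with ⟨a, b, c⟩ | ⟨a, a', b, c⟩ | ⟨a, a', b, c⟩ | ⟨a, a', b, c⟩ |
    ⟨a, b, c⟩ <;> rw [b, c, e] <;> rw [e] at a
  · linarith
  · rw [e] at a'
    linarith
  · rw [e] at a'
    linarith
  · linarith

theorem om_right (hL : 8 ≤ L) : om L (3 / 4) = (0, 3) := by
  have e := sp_right hL
  have hs : sp L (3 / 4) ∈ Icc (-L - 3) (3 * L - 5) := sp_mem hL ⟨by norm_num, by norm_num⟩
  unfold om
  rcases P_cases hL hs with ⟨a, b, c⟩ | ⟨a, a', b, c⟩ | ⟨a, a', b, c⟩ | ⟨a, a', b, c⟩ |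
    ⟨a, b, c⟩ <;> rw [b, c, e] <;> rw [e] at a
  · linarith
  · rw [e] at a'
    linarith
  · rw [e] at a'
    linarith
  · rw [e] at a'
    linarith
  · congr 1
    ring

theorem om_left (hL : 8 ≤ L) : om L (-3 / 4) = (0, 1) := by
  have e := sp_left hL
  have hs : sp L (-3 / 4) ∈ Icc (-L - 3) (3 * L - 5) := sp_mem hL ⟨by norm_num, by norm_num⟩
  unfold om
  rcases P_cases hL hs with ⟨a, b, c⟩ | ⟨a, a', b, c⟩ | ⟨a, a', b, c⟩ | ⟨a, a', b, c⟩ |
    ⟨a, b, c⟩ <;> rw [b, c, e] <;> rw [e] at a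
  · congr 1
    ring
  · linarith
  · linarith
  · linarith
  · linarith

theorem om_left_side (hL : 8 ≤ L) {r : ℝ} (hr : r ∈ Icc (-3 / 4 : ℝ) (3 / 4))
    (h : (om L r).1 = 0) : (om L r).2 ∉ Ioo 1 3 := by
  change P1 L (sp L r) = 0 at h
  change P2 L (sp L r) ∉ Ioo 1 3
  have hs := sp_mem hL hr
  obtain ⟨s1, s2⟩ := hs
  rintro ⟨h1, h2⟩
  rcases P_cases hL ⟨s1, s2⟩ with ⟨a, b, c⟩ | ⟨a, a', b, c⟩ | ⟨a, a', b, c⟩ | ⟨a, a', b, c⟩ |
    ⟨a, b, c⟩ <;> rw [c] at h1 h2 <;> rw [b] at h <;> linarith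

theorem om_right_side (hL : 8 ≤ L) {r : ℝ} (hr : r ∈ Icc (-3 / 4 : ℝ) (3 / 4))
    (h : (om L r).1 = L) (h' : (om L r).2 ∈ Icc (1 : ℝ) 3) : r ∈ Icc (-1 / 2 : ℝ) (1 / 2) := by
  have e : om L (((om L r).2 - 2) / 2) = om L r := by
    rw [om_half hL (by linarith [h'.1]) (by linarith [h'.2])]
    refine Prod.ext h.symm ?_
    change 2 + 2 * (((om L r).2 - 2) / 2) = (om L r).2
    ring
  have := om_inj hL (r := ((om L r).2 - 2) / 2) ⟨by linarith [h'.1], by linarith [h'.2]⟩ hr e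
  rw [← this]
  exact ⟨by linarith [h'.1], by linarith [h'.2]⟩

/-! ### The square `[-1, 1]²` and the boundary of the cube minus a square -/

/-- sup norm -/
def rho (c : ℝ × ℝ) : ℝ := max |c.1| |c.2|

/-- scaling factor -/
def kap (t : ℝ) : ℝ := min (1 / max t (1 / 3)) (2 / max t (1 / 3) - 3 / 2)

def Kr (c : ℝ × ℝ) : ℝ := kap (rho c) * c.2
def Ky (c : ℝ × ℝ) : ℝ := kap (rho c) * c.1
def Kx (c : ℝ × ℝ) : ℝ := max (-1) (min 1 (6 * rho c - 3))

theorem continuous_rho : Continuous rho := by unfold rho; fun_prop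

theorem continuous_kap : Continuous kap := by
  unfold kap
  have h : ∀ t : ℝ, max t (1 / 3) ≠ 0 := fun t =>
    (lt_of_lt_of_le (by norm_num : (0 : ℝ) < 1 / 3) (le_max_right _ _)).ne'
  have h1 : Continuous fun t : ℝ => 1 / max t (1 / 3) :=
    continuous_const.div (by fun_prop) h
  have h2 : Continuous fun t : ℝ => 2 / max t (1 / 3) - 3 / 2 :=
    (continuous_const.div (by fun_prop) h).sub continuous_const
  exact h1.min h2

theorem continuous_Kr : Continuous Kr := by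
  unfold Kr
  exact (continuous_kap.comp continuous_rho).mul continuous_snd

theorem continuous_Ky : Continuous Ky := by
  unfold Ky
  exact (continuous_kap.comp continuous_rho).mul continuous_fst

theorem continuous_Kx : Continuous Kx := by
  unfold Kx
  have := continuous_rho
  fun_prop

theorem rho_nonneg (c : ℝ × ℝ) : 0 ≤ rho c := (abs_nonneg _).trans (le_max_left _ _)

/-- The three zones. -/
theorem zone (t : ℝ) :
    (t ≤ 1 / 3 ∧ kap t = 3 ∧ max (-1) (min 1 (6 * t - 3)) = -1) ∨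
    (1 / 3 ≤ t ∧ t ≤ 2 / 3 ∧ kap t = 1 / t ∧ max (-1) (min 1 (6 * t - 3)) = 6 * t - 3) ∨
    (2 / 3 ≤ t ∧ kap t = 2 / t - 3 / 2 ∧ max (-1) (min 1 (6 * t - 3)) = 1) := by
  unfold kap
  rcases le_total t (1 / 3) with a | a
  · left
    refine ⟨a, ?_, ?_⟩
    · rw [max_eq_right a]
      norm_num
    · rw [min_eq_right (by linarith), max_eq_left (by linarith)]
  right
  rw [max_eq_left a]
  have ht0 : 0 < t := by linarith
  rcases le_total t (2 / 3) with b | b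
  · left
    refine ⟨a, b, min_eq_left ?_, ?_⟩
    · have : 3 / 2 ≤ 1 / t := by rw [le_div_iff₀ ht0]; linarith
      have e : 2 / t = 2 * (1 / t) := by ring
      rw [e]
      linarith
    · rw [min_eq_right (by linarith), max_eq_right (by linarith)]
  right
  refine ⟨b, min_eq_right ?_, ?_⟩
  · have : 1 / t ≤ 3 / 2 := by rw [div_le_iff₀ ht0]; linarith
    have e : 2 / t = 2 * (1 / t) := by ring
    rw [e]
    linarith
  · rw [min_eq_left (by linarith), max_eq_right (by norm_num)]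

/-- The three zones, with the size. -/
theorem zone' {t : ℝ} (_ : 0 ≤ t) (h1 : t ≤ 1) : 0 < kap t ∧
    ((t ≤ 1 / 3 ∧ kap t * t = 3 * t ∧ max (-1) (min 1 (6 * t - 3)) = -1) ∨
    (1 / 3 ≤ t ∧ t ≤ 2 / 3 ∧ kap t * t = 1 ∧ max (-1) (min 1 (6 * t - 3)) = 6 * t - 3) ∨
    (2 / 3 ≤ t ∧ kap t * t = 2 - 3 * t / 2 ∧ max (-1) (min 1 (6 * t - 3)) = 1)) := by
  rcases zone t with ⟨a, b, c⟩ | ⟨a, a', b, c⟩ | ⟨a, b, c⟩
  · rw [b]
    exact ⟨by norm_num, Or.inl ⟨a, rfl, c⟩⟩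
  · rw [b]
    have : 0 < t := by linarith
    exact ⟨by positivity, Or.inr (Or.inl ⟨a, a', by field_simp, c⟩)⟩
  · rw [b]
    have ht : 0 < t := by linarith
    have h2 : 2 ≤ 2 / t := by rw [le_div_iff₀ ht]; linarith
    refine ⟨by linarith, Or.inr (Or.inr ⟨a, ?_, c⟩)⟩
    field_simp

/-- The size of `(Kr, Ky)`. -/
theorem size_K (c : ℝ × ℝ) (hc : rho c ≤ 1) : max |Ky c| |Kr c| = kap (rho c) * rho c := by
  have hk := (zone' (rho_nonneg c) hc).1.le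
  unfold Ky Kr
  rw [abs_mul, abs_mul, abs_of_nonneg hk, ← mul_max_of_nonneg _ _ hk]
  rfl

theorem K_inj {c c' : ℝ × ℝ} (hc : rho c ≤ 1) (hc' : rho c' ≤ 1) (hr : Kr c = Kr c')
    (hx : Kx c = Kx c') (hy : Ky c = Ky c') : c = c' := by
  have s1 := size_K c hc
  have s2 := size_K c' hc'
  rw [hr, hy, s2] at s1
  have z1 := zone' (rho_nonneg c) hc
  have z2 := zone' (rho_nonneg c') hc'
  have hx' : max (-1) (min 1 (6 * rho c - 3)) = max (-1) (min 1 (6 * rho c' - 3)) := hx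
  have hρ : rho c = rho c' := by
    rcases z1.2 with ⟨a, m, k⟩ | ⟨a, a', m, k⟩ | ⟨a, m, k⟩ <;>
    rcases z2.2 with ⟨b, m', k'⟩ | ⟨b, b', m', k'⟩ | ⟨b, m', k'⟩ <;>
    rw [k, k'] at hx' <;> rw [m, m'] at s1 <;> linarith
  have hk := z2.1.ne'
  unfold Kr at hr
  unfold Ky at hy
  rw [hρ] at hr hy
  exact Prod.ext (mul_left_cancel₀ hk hy) (mul_left_cancel₀ hk hr)

theorem abs_K_le {c : ℝ × ℝ} (hc : rho c ≤ 1) : |Ky c| ≤ 1 ∧ |Kr c| ≤ 1 := by
  have s1 := size_K c hc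
  have : max |Ky c| |Kr c| ≤ 1 := by
    rw [s1]
    rcases (zone' (rho_nonneg c) hc).2 with ⟨a, m, k⟩ | ⟨a, a', m, k⟩ | ⟨a, m, k⟩ <;> rw [m] <;>
      linarith
  exact max_le_iff.1 this

theorem Kx_mem (c : ℝ × ℝ) : Kx c ∈ Icc (-1 : ℝ) 1 := by
  unfold Kx
  exact ⟨le_max_left _ _, max_le (by norm_num) (min_le_left _ _)⟩

/-- The part of the square which is mapped to the two discs. -/
def setA : Set (ℝ × ℝ) := {c | |c.2| = rho c ∧ 1 / 3 ≤ rho c ∧ rho c ≤ 2 / 3}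

/-- The part of the square which is mapped to the compressed handle. -/
def setB : Set (ℝ × ℝ) := {c | rho c ≤ 1 / 3 ∨ 2 / 3 ≤ rho c ∨ |c.1| = rho c}

theorem isClosed_setA : IsClosed setA := by
  have h := continuous_rho
  have h1 : IsClosed {c : ℝ × ℝ | |c.2| = rho c} := isClosed_eq (by fun_prop) h
  have h2 : IsClosed {c : ℝ × ℝ | 1 / 3 ≤ rho c} := isClosed_le continuous_const h
  have h3 : IsClosed {c : ℝ × ℝ | rho c ≤ 2 / 3} := isClosed_le h continuous_const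
  exact h1.inter (h2.inter h3)

theorem isClosed_setB : IsClosed setB := by
  have h := continuous_rho
  have h1 : IsClosed {c : ℝ × ℝ | |c.1| = rho c} := isClosed_eq (by fun_prop) h
  have h2 : IsClosed {c : ℝ × ℝ | 2 / 3 ≤ rho c} := isClosed_le continuous_const h
  have h3 : IsClosed {c : ℝ × ℝ | rho c ≤ 1 / 3} := isClosed_le h continuous_const
  exact h3.union (h2.union h1)

theorem mem_A_or_B (c : ℝ × ℝ) : c ∈ setA ∨ c ∈ setB := by
  by_cases h1 : rho c ≤ 1 / 3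
  · exact Or.inr (Or.inl h1)
  by_cases h2 : 2 / 3 ≤ rho c
  · exact Or.inr (Or.inr (Or.inl h2))
  rcases max_choice |c.1| |c.2| with h | h
  · exact Or.inr (Or.inr (Or.inr h.symm))
  · exact Or.inl ⟨h.symm, (not_le.1 h1).le, (not_le.1 h2).le⟩

theorem abs_Kr_of_A {c : ℝ × ℝ} (hc : c ∈ setA) : |Kr c| = 1 := by
  obtain ⟨h1, h2, h3⟩ := hc
  unfold Kr
  have z := zone' (rho_nonneg c) (by linarith)
  rw [abs_mul, abs_of_pos z.1, h1]
  rcases z.2 with ⟨a, m, k⟩ | ⟨a, a', m, k⟩ | ⟨a, m, k⟩ <;> rw [m] <;> linarith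

theorem bd_of_B {c : ℝ × ℝ} (hc : rho c ≤ 1) (hB : c ∈ setB) :
    Kx c = -1 ∨ Kx c = 1 ∨ |Ky c| = 1 := by
  have z := zone' (rho_nonneg c) hc
  unfold Kx
  rcases z.2 with ⟨a, m, k⟩ | ⟨a, a', m, k⟩ | ⟨a, m, k⟩
  · exact Or.inl k
  · rcases hB with h | h | h
    · left
      rw [k]
      linarith
    · right; left
      rw [k]
      linarith
    · right; right
      unfold Ky
      rw [abs_mul, abs_of_pos z.1, h, m]
  · exact Or.inr (Or.inl k)

theorem rho_eq_one {c : ℝ × ℝ} (hc : rho c ≤ 1) (hx : Kx c = 1) (hr : |Kr c| ≤ 1 / 2)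
    (hy : |Ky c| ≤ 1 / 2) : rho c = 1 := by
  have s1 := size_K c hc
  have s2 : max |Ky c| |Kr c| ≤ 1 / 2 := max_le hy hr
  rw [s1] at s2
  unfold Kx at hx
  rcases (zone' (rho_nonneg c) hc).2 with ⟨a, m, k⟩ | ⟨a, a', m, k⟩ | ⟨a, m, k⟩ <;> rw [m] at s2 <;>
    rw [k] at hx <;> linarith

theorem K_of_rho_one {c : ℝ × ℝ} (h : rho c = 1) :
    Kr c = c.2 / 2 ∧ Ky c = c.1 / 2 ∧ Kx c = 1 := by
  have hk : kap 1 = 1 / 2 := by
    unfold kap
    norm_num
  unfold Kr Ky Kx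
  rw [h, hk]
  refine ⟨by ring, by ring, by norm_num⟩

/-- the inverse on the two discs -/
def Kinv (e x y : ℝ) : ℝ × ℝ := ((x + 3) / 6 * y, (x + 3) / 6 * e)

theorem rho_Kinv {e x y : ℝ} (he : |e| = 1) (hx : x ∈ Icc (-1 : ℝ) 1) (hy : y ∈ Icc (-1 : ℝ) 1) :
    rho (Kinv e x y) = (x + 3) / 6 := by
  have h0 : 0 ≤ (x + 3) / 6 := by linarith [hx.1]
  unfold rho Kinv
  simp only
  rw [abs_mul, abs_mul, he, abs_of_nonneg h0, mul_one]
  exact max_eq_right (mul_le_of_le_one_right h0 (abs_le.2 hy))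

theorem Kinv_mem_A {e x y : ℝ} (he : |e| = 1) (hx : x ∈ Icc (-1 : ℝ) 1)
    (hy : y ∈ Icc (-1 : ℝ) 1) : Kinv e x y ∈ setA := by
  have h := rho_Kinv he hx hy
  have h0 : 0 ≤ (x + 3) / 6 := by linarith [hx.1]
  refine ⟨?_, ?_, ?_⟩
  · rw [h]
    unfold Kinv
    simp only
    rw [abs_mul, he, abs_of_nonneg h0, mul_one]
  · rw [h]; linarith [hx.1]
  · rw [h]; linarith [hx.2]

theorem K_Kinv {e x y : ℝ} (he : |e| = 1) (hx : x ∈ Icc (-1 : ℝ) 1) (hy : y ∈ Icc (-1 : ℝ) 1) :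
    Kr (Kinv e x y) = e ∧ Kx (Kinv e x y) = x ∧ Ky (Kinv e x y) = y := by
  have h := rho_Kinv he hx hy
  have h1 : 1 / 3 ≤ (x + 3) / 6 := by linarith [hx.1]
  have h2 : (x + 3) / 6 ≤ 2 / 3 := by linarith [hx.2]
  have hpos : (x + 3) / 6 ≠ 0 := by linarith
  have hk : kap ((x + 3) / 6) = 1 / ((x + 3) / 6) := by
    rcases zone ((x + 3) / 6) with ⟨a, b, c⟩ | ⟨a, a', b, c⟩ | ⟨a, b, c⟩
    · have : (x + 3) / 6 = 1 / 3 := le_antisymm a h1
      rw [b, this]; norm_num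
    · exact b
    · have : (x + 3) / 6 = 2 / 3 := le_antisymm h2 a
      rw [b, this]; norm_num
  have h3 : x + 3 ≠ 0 := by linarith [hx.1]
  unfold Kr Ky Kx
  rw [h, hk]
  refine ⟨?_, ?_, ?_⟩
  · unfold Kinv
    field_simp
  · rw [min_eq_right (by linarith), max_eq_right (by linarith)]
    ring
  · unfold Kinv
    field_simp

end Vale.Agent.P215.H562.Sane
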