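import Vale.Agent.P215.H562.SaneA

/-!
# Explicit framed discs, part B: the compressed handle
-/

noncomputable section

namespace Vale.Agent.P215.H562.Sane

open Set H788

/-- slope in the turning collars -/
def zet (t : ℝ) : ℝ := 3 / 10 * t - 1 / 10

/-- clamp to `[-3/4, 3/4]` -/
def clp (r : ℝ) : ℝ := max (-3 / 4) (min r (3 / 4))

/-- signed collar parameter -/
def sgq (r : ℝ) : ℝ := max 0 (4 * r - 3) - max 0 (-4 * r - 3)

/-- collar parameter -/
def col (r : ℝ) : ℝ := max 0 (4 * |r| - 3)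

theorem col_cases {r : ℝ} (hr : |r| ≤ 1) :
    (r ∈ Icc (-3 / 4 : ℝ) (3 / 4) ∧ clp r = r ∧ sgq r = 0 ∧ col r = 0) ∨
    (3 / 4 ≤ r ∧ r ≤ 1 ∧ clp r = 3 / 4 ∧ sgq r = 4 * r - 3 ∧ col r = 4 * r - 3) ∨
    (-1 ≤ r ∧ r ≤ -3 / 4 ∧ clp r = -3 / 4 ∧ sgq r = 4 * r + 3 ∧ col r = -4 * r - 3) := by
  obtain ⟨h1, h2⟩ := abs_le.1 hr
  unfold clp sgq col
  rcases le_total (3 / 4) r with a | a
  · right; left
    refine ⟨a, h2, ?_, ?_, ?_⟩
    · rw [min_eq_right a, max_eq_right (by norm_num)]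
    · rw [max_eq_right (by linarith), max_eq_left (by linarith)]; ring
    · rw [abs_of_nonneg (by linarith), max_eq_right (by linarith)]
  rcases le_total r (-3 / 4) with b | b
  · right; right
    refine ⟨h1, b, ?_, ?_, ?_⟩
    · rw [min_eq_left a, max_eq_left b]
    · rw [max_eq_left (by linarith), max_eq_right (by linarith)]; ring
    · rw [abs_of_nonpos (by linarith), max_eq_right (by linarith)]; ring
  left
  refine ⟨⟨b, a⟩, ?_, ?_, ?_⟩
  · rw [min_eq_left a, max_eq_right b]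
  · rw [max_eq_left (by linarith), max_eq_left (by linarith)]; ring
  · exact max_eq_left (by have := abs_le.2 ⟨(by linarith : -(3 / 4) ≤ r), a⟩; linarith)

/-- The map to the handle. -/
def hE (L : ℝ) (c v : ℝ × ℝ) : E :=
  (((om L (clp (Kr c))).1, (om L (clp (Kr c))).2 - sgq (Kr c) * zet v.1),
    (fx L (Kx c), fy L (Ky c)), (v.1 - col (Kr c) * (v.1 - 1), v.2))

/-- The map to the cap. -/
def cE (L : ℝ) (c v : ℝ × ℝ) : E :=
  ((fx L (Kx c), fy L (Ky c)), 0, (2 + Kr c * (1 - zet v.1), v.2))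

theorem continuous_hE (L : ℝ) : Continuous fun p : (ℝ × ℝ) × (ℝ × ℝ) => hE L p.1 p.2 := by
  have k1 := continuous_Kr
  have k2 := continuous_Kx
  have k3 := continuous_Ky
  have k4 := continuous_om L
  have k5 := continuous_fx L
  have k6 := continuous_fy L
  have k7 : Continuous clp := by unfold clp; fun_prop
  have k8 : Continuous sgq := by unfold sgq; fun_prop
  have k9 : Continuous col := by unfold col; fun_prop
  have k10 : Continuous zet := by unfold zet; fun_prop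
  unfold hE
  generalize om L = o at k4 ⊢
  generalize fx L = f at k5 ⊢
  generalize fy L = g at k6 ⊢
  fun_prop

theorem continuous_cE (L : ℝ) : Continuous fun p : (ℝ × ℝ) × (ℝ × ℝ) => cE L p.1 p.2 := by
  have k1 := continuous_Kr
  have k2 := continuous_Kx
  have k3 := continuous_Ky
  have k5 := continuous_fx L
  have k6 := continuous_fy L
  have k10 : Continuous zet := by unfold zet; fun_prop
  unfold cE
  fun_prop

variable {L : ℝ}

/-- The first coordinate pair of `hE` in the two collars. -/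
theorem hE_collar (hL : 8 ≤ L) {c v : ℝ × ℝ} {e : ℝ} (he : e = 1 ∨ e = -1)
    (h : 3 / 4 ≤ e * Kr c) (h' : e * Kr c ≤ 1) :
    hE L c v = ((0, 2 + e * (1 - (4 * (e * Kr c) - 3) * zet v.1)),
      (fx L (Kx c), fy L (Ky c)), (v.1 - (4 * (e * Kr c) - 3) * (v.1 - 1), v.2)) := by
  have hr : |Kr c| ≤ 1 := by
    rcases he with rfl | rfl
    · exact abs_le.2 ⟨by linarith, by linarith⟩
    · exact abs_le.2 ⟨by linarith, by linarith⟩
  unfold hE
  rcases he with rfl | rfl
  · rcases col_cases hr with ⟨a, b, k, m⟩ | ⟨a, a', b, k, m⟩ | ⟨a, a', b, k, m⟩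
    · have : Kr c = 3 / 4 := le_antisymm a.2 (by linarith)
      rw [b, k, m, this, om_right hL]
      norm_num
    · rw [b, k, m, om_right hL]
      refine Prod.ext (Prod.ext rfl ?_) (Prod.ext rfl (Prod.ext ?_ rfl))
      · simp only
        ring
      · simp only
        ring
    · linarith
  · rcases col_cases hr with ⟨a, b, k, m⟩ | ⟨a, a', b, k, m⟩ | ⟨a, a', b, k, m⟩
    · have : Kr c = -3 / 4 := le_antisymm (by linarith) a.1
      rw [b, k, m, this, om_left hL]
      norm_num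
    · linarith
    · rw [b, k, m, om_left hL]
      refine Prod.ext (Prod.ext rfl ?_) (Prod.ext rfl (Prod.ext ?_ rfl))
      · simp only
        ring
      · simp only
        ring

/-- `hE` in the middle. -/
theorem hE_mid {c v : ℝ × ℝ} (h : Kr c ∈ Icc (-3 / 4 : ℝ) (3 / 4)) :
    hE L c v = (om L (Kr c), (fx L (Kx c), fy L (Ky c)), v) := by
  have hr : |Kr c| ≤ 1 := abs_le.2 ⟨by linarith [h.1], by linarith [h.2]⟩
  have key : clp (Kr c) = Kr c ∧ sgq (Kr c) = 0 ∧ col (Kr c) = 0 := by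
    rcases col_cases hr with ⟨a, b, k, m⟩ | ⟨a, a', b, k, m⟩ | ⟨a, a', b, k, m⟩
    · exact ⟨b, k, m⟩
    · have : Kr c = 3 / 4 := le_antisymm h.2 a
      exact ⟨by rw [b, this], by rw [k, this]; norm_num, by rw [m, this]; norm_num⟩
    · have : Kr c = -3 / 4 := le_antisymm a' h.1
      exact ⟨by rw [b, this], by rw [k, this]; norm_num, by rw [m, this]; norm_num⟩
  unfold hE
  rw [key.1, key.2.1, key.2.2]
  refine Prod.ext (Prod.ext rfl ?_) (Prod.ext rfl (Prod.ext ?_ rfl))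
  · simp
  · simp

/-- The trichotomy. -/
theorem Kr_cases {c : ℝ × ℝ} (hc : rho c ≤ 1) :
    Kr c ∈ Icc (-3 / 4 : ℝ) (3 / 4) ∨
      ∃ e : ℝ, (e = 1 ∨ e = -1) ∧ 3 / 4 < e * Kr c ∧ e * Kr c ≤ 1 := by
  obtain ⟨h1, h2⟩ := abs_le.1 (abs_K_le hc).2
  by_cases a : 3 / 4 < Kr c
  · exact Or.inr ⟨1, Or.inl rfl, by linarith, by linarith⟩
  by_cases b : Kr c < -3 / 4
  · exact Or.inr ⟨-1, Or.inr rfl, by linarith, by linarith⟩
  exact Or.inl ⟨not_lt.1 b, not_lt.1 a⟩

/-- The corner map is injective. -/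
theorem corner_inj {a a' t t' : ℝ} (ha : a ∈ Ioc (0 : ℝ) 1) (ha' : a' ∈ Ioc (0 : ℝ) 1)
    (ht : t ∈ Icc (1 : ℝ) 3) (ht' : t' ∈ Icc (1 : ℝ) 3) (h1 : a * zet t = a' * zet t')
    (h2 : t - a * (t - 1) = t' - a' * (t' - 1)) : a = a' ∧ t = t' := by
  unfold zet at h1
  obtain ⟨a0, a1⟩ := ha
  obtain ⟨b0, b1⟩ := ha'
  obtain ⟨t1, t3⟩ := ht
  obtain ⟨u1, u3⟩ := ht'
  have key : a = a' := by
    rcases lt_trichotomy a a' with h | h | h
    · exfalso
      have : t' < t := by nlinarith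
      nlinarith
    · exact h
    · exfalso
      have : t < t' := by nlinarith
      nlinarith
  subst key
  refine ⟨rfl, ?_⟩
  have : a * (3 / 10 * (t - t')) = 0 := by linarith
  rcases mul_eq_zero.1 this with h | h
  · linarith
  · linarith

/-! ### Membership -/

theorem zet_mem {t : ℝ} (ht : t ∈ Icc (1 : ℝ) 3) : zet t ∈ Icc (1 / 5 : ℝ) (4 / 5) := by
  unfold zet
  exact ⟨by linarith [ht.1], by linarith [ht.2]⟩

theorem sq_mem (hL : 8 ≤ L) {c : ℝ × ℝ} (hc : rho c ≤ 1) : (fx L (Kx c), fy L (Ky c)) ∈ Sq L :=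
  ⟨fx_mem hL (Kx_mem c), fy_mem hL (abs_le.1 (abs_K_le hc).1)⟩

theorem bd_mem (hL : 8 ≤ L) {c : ℝ × ℝ} (hc : rho c ≤ 1) (hB : c ∈ setB) :
    (fx L (Kx c), fy L (Ky c)) ∈ bdSq L := by
  refine ⟨sq_mem hL hc, ?_⟩
  rcases bd_of_B hc hB with h | h | h
  · left
    change fx L (Kx c) = 0
    rw [h, fx_neg_one]
  · right; left
    change fx L (Kx c) = L
    rw [h, fx_one]
  · rcases (abs_eq (zero_le_one' ℝ)).1 h with h | h
    · right; right; right
      change fy L (Ky c) = L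
      rw [h, fy_one hL]
    · right; right; left
      change fy L (Ky c) = 0
      rw [h, fy_neg_one hL]

/-- The points of the compressed handle lie in the handle. -/
theorem hE_mem (G : CappedGrope) (hL : 8 ≤ G.L) {j : ℕ} (hj : j < G.genus 0) {c v : ℝ × ℝ}
    (hc : rho c ≤ 1) (hB : c ∈ setB) (hv : v ∈ Fib) :
    hE G.L c v ∈ G.region (.handle 0 j) := by
  have hbd := bd_mem hL hc hB
  have hz := zet_mem hv.1
  rcases Kr_cases hc with h | ⟨e, he, h1, h2⟩
  · rw [hE_mid h]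
    refine ⟨hj, ⟨om_mem hL h, hbd, ?_⟩, hv⟩
    rintro ⟨a1, a2, a3, a4⟩
    change (om G.L (Kr c)).1 = G.L at a1
    change fx G.L (Kx c) = G.L at a2
    change (om G.L (Kr c)).2 ∈ Ioo (1 : ℝ) 3 at a3
    change fy G.L (Ky c) ∈ Ioo (1 : ℝ) 3 at a4
    have b1 := om_right_side hL h a1 ⟨a3.1.le, a3.2.le⟩
    rw [om_half hL b1.1 b1.2] at a3
    have b2 : Kx c = 1 := fx_inj hL (a2.trans fx_one.symm)
    have b3 : Ky c < 1 / 2 := by
      rw [← (fy_strictMono hL).lt_iff_lt, fy_half hL le_rfl]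
      linarith [a4.2]
    have b4 : -1 / 2 < Ky c := by
      rw [← (fy_strictMono hL).lt_iff_lt, fy_half hL (by norm_num)]
      linarith [a4.1]
    have a3' : 2 + 2 * Kr c ∈ Ioo (1 : ℝ) 3 := a3
    have b5 := rho_eq_one hc b2 (abs_le.2 ⟨by linarith [b1.1], b1.2⟩)
      (abs_le.2 ⟨by linarith, b3.le⟩)
    obtain ⟨k1, k2, -⟩ := K_of_rho_one b5
    rcases max_choice |c.1| |c.2| with m | m
    · have : |c.1| = 1 := m.symm.trans b5
      rcases (abs_eq (zero_le_one' ℝ)).1 this with m | m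
      · rw [k2, m] at b3
        exact absurd b3 (lt_irrefl _)
      · rw [k2, m] at b4
        exact absurd b4 (lt_irrefl _)
    · have : |c.2| = 1 := m.symm.trans b5
      rcases (abs_eq (zero_le_one' ℝ)).1 this with m | m
      · rw [k1, m] at a3'
        norm_num at a3'
      · rw [k1, m] at a3'
        norm_num at a3'
  · rw [hE_collar hL he h1.le h2]
    have hz' := hz
    obtain ⟨z1, z2⟩ := hz
    have p1 : 0 ≤ (4 * (e * Kr c) - 3) * zet v.1 := mul_nonneg (by linarith) (by linarith)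
    have p2 : (4 * (e * Kr c) - 3) * zet v.1 ≤ 1 := by nlinarith
    have p3 : 2 + e * (1 - (4 * (e * Kr c) - 3) * zet v.1) ∈ Icc (1 : ℝ) 3 := by
      rcases he with rfl | rfl
      · constructor <;> linarith
      · constructor <;> linarith
    refine ⟨hj, ⟨⟨⟨⟨le_rfl, by linarith⟩, ⟨by linarith [p3.1], by linarith [p3.2]⟩⟩, Or.inl rfl⟩,
      hbd, ?_⟩, ?_⟩
    · rintro ⟨a1, -⟩
      change (0 : ℝ) = G.L at a1
      linarith
    · obtain ⟨⟨v1, v2⟩, v3⟩ := hv
      refine ⟨⟨?_, ?_⟩, v3⟩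
      · change 1 ≤ v.1 - (4 * (e * Kr c) - 3) * (v.1 - 1)
        nlinarith
      · change v.1 - (4 * (e * Kr c) - 3) * (v.1 - 1) ≤ 3
        nlinarith

/-- The fibre coordinate on the two discs. -/
theorem fib_mem {c v : ℝ × ℝ} (hA : c ∈ setA) (hv : v ∈ Fib) :
    2 + Kr c * (1 - zet v.1) ∈ Ioo (1 : ℝ) 3 := by
  obtain ⟨z1, z2⟩ := zet_mem hv.1
  rcases (abs_eq (zero_le_one' ℝ)).1 (abs_Kr_of_A hA) with h | h <;> rw [h] <;>
    constructor <;> linarith

/-- The points of the two discs lie in the cap. -/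
theorem cE_mem (G : CappedGrope) (hL : 8 ≤ G.L) {j : ℕ} (hj : j < G.genus 0) {c v : ℝ × ℝ}
    (hA : c ∈ setA) (hv : v ∈ Fib) : cE G.L c v ∈ G.region (.cap (0, j, true)) := by
  have hf := fib_mem hA hv
  refine ⟨⟨hj, by simp⟩, sq_mem hL (by linarith [hA.2.2]), rfl, ⟨⟨hf.1.le, hf.2.le⟩, hv.2⟩⟩

/-! ### Coincidences -/

theorem hE_inj (hL : 8 ≤ L) {c c' v v' : ℝ × ℝ} (hc : rho c ≤ 1) (hc' : rho c' ≤ 1)
    (hv : v ∈ Fib) (hv' : v' ∈ Fib) (h : hE L c v = hE L c' v') : c = c' ∧ v = v' := by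
  have hq : (fx L (Kx c), fy L (Ky c)) = (fx L (Kx c'), fy L (Ky c')) :=
    congrArg (fun x : E => x.2.1) h
  have hx : Kx c = Kx c' := fx_inj hL (congrArg Prod.fst hq)
  have hy : Ky c = Ky c' := fy_inj hL (congrArg Prod.snd hq)
  have h6 : v.2 = v'.2 := congrArg (fun x : E => x.2.2.2) h
  have z := zet_mem hv.1
  have z' := zet_mem hv'.1
  have key : Kr c = Kr c' ∧ v.1 = v'.1 := by
    rcases Kr_cases hc with h1 | ⟨e, he, h1, h2⟩ <;>
    rcases Kr_cases hc' with h3 | ⟨e', he', h3, h4⟩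
    · rw [hE_mid h1, hE_mid h3] at h
      exact ⟨om_inj hL h1 h3 (congrArg Prod.fst h), congrArg (fun x : E => x.2.2.1) h⟩
    · exfalso
      rw [hE_mid h1, hE_collar hL he' h3.le h4] at h
      have a1 : (om L (Kr c)).1 = 0 := congrArg (fun x : E => x.1.1) h
      have a2 : (om L (Kr c)).2 = 2 + e' * (1 - (4 * (e' * Kr c') - 3) * zet v'.1) :=
        congrArg (fun x : E => x.1.2) h
      apply om_left_side hL h1 a1
      rw [a2]
      have p1 : 0 < (4 * (e' * Kr c') - 3) * zet v'.1 :=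
        mul_pos (by linarith) (by linarith [z'.1])
      have p2 : (4 * (e' * Kr c') - 3) * zet v'.1 < 1 := by nlinarith [z'.1, z'.2]
      rcases he' with rfl | rfl <;> constructor <;> linarith
    · exfalso
      rw [hE_mid h3, hE_collar hL he h1.le h2] at h
      have a1 : 0 = (om L (Kr c')).1 := congrArg (fun x : E => x.1.1) h
      have a2 : 2 + e * (1 - (4 * (e * Kr c) - 3) * zet v.1) = (om L (Kr c')).2 :=
        congrArg (fun x : E => x.1.2) h
      apply om_left_side hL h3 a1.symm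
      rw [← a2]
      have p1 : 0 < (4 * (e * Kr c) - 3) * zet v.1 :=
        mul_pos (by linarith) (by linarith [z.1])
      have p2 : (4 * (e * Kr c) - 3) * zet v.1 < 1 := by nlinarith [z.1, z.2]
      rcases he with rfl | rfl <;> constructor <;> linarith
    · rw [hE_collar hL he h1.le h2, hE_collar hL he' h3.le h4] at h
      have a2 : 2 + e * (1 - (4 * (e * Kr c) - 3) * zet v.1) =
        2 + e' * (1 - (4 * (e' * Kr c') - 3) * zet v'.1) := congrArg (fun x : E => x.1.2) h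
      have a3 : v.1 - (4 * (e * Kr c) - 3) * (v.1 - 1) =
        v'.1 - (4 * (e' * Kr c') - 3) * (v'.1 - 1) := congrArg (fun x : E => x.2.2.1) h
      have p2 : (4 * (e * Kr c) - 3) * zet v.1 < 1 := by nlinarith [z.1, z.2]
      have p2' : (4 * (e' * Kr c') - 3) * zet v'.1 < 1 := by nlinarith [z'.1, z'.2]
      have hee : e = e' := by
        rcases he with rfl | rfl <;> rcases he' with rfl | rfl
        · rfl
        · linarith
        · linarith
        · rfl
      subst hee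
      have a4 : (4 * (e * Kr c) - 3) * zet v.1 = (4 * (e * Kr c') - 3) * zet v'.1 := by
        rcases he with rfl | rfl <;> linarith
      have := corner_inj ⟨by linarith, by linarith⟩ ⟨by linarith, by linarith⟩ hv.1 hv'.1 a4 a3
      refine ⟨?_, this.2⟩
      rcases he with rfl | rfl <;> linarith [this.1]
  exact ⟨K_inj hc hc' key.1 hx hy, Prod.ext key.2 h6⟩

theorem cE_inj (hL : 8 ≤ L) {c c' v v' : ℝ × ℝ} (hA : c ∈ setA) (hA' : c' ∈ setA)
    (hv : v ∈ Fib) (hv' : v' ∈ Fib) (h : cE L c v = cE L c' v') : c = c' ∧ v = v' := by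
  have hq : (fx L (Kx c), fy L (Ky c)) = (fx L (Kx c'), fy L (Ky c')) :=
    congrArg (fun x : E => x.1) h
  have hx : Kx c = Kx c' := fx_inj hL (congrArg Prod.fst hq)
  have hy : Ky c = Ky c' := fy_inj hL (congrArg Prod.snd hq)
  have h6 : v.2 = v'.2 := congrArg (fun x : E => x.2.2.2) h
  have h5 : 2 + Kr c * (1 - zet v.1) = 2 + Kr c' * (1 - zet v'.1) :=
    congrArg (fun x : E => x.2.2.1) h
  have z := zet_mem hv.1
  have z' := zet_mem hv'.1
  have key : Kr c = Kr c' ∧ v.1 = v'.1 := by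
    rcases (abs_eq (zero_le_one' ℝ)).1 (abs_Kr_of_A hA) with h | h <;>
    rcases (abs_eq (zero_le_one' ℝ)).1 (abs_Kr_of_A hA') with h' | h' <;> rw [h, h'] at h5 ⊢
    · unfold zet at h5
      exact ⟨rfl, by linarith⟩
    · linarith [z.2, z'.2]
    · linarith [z.2, z'.2]
    · unfold zet at h5
      exact ⟨rfl, by linarith⟩
  exact ⟨K_inj (by linarith [hA.2.2]) (by linarith [hA'.2.2]) key.1 hx hy, Prod.ext key.2 h6⟩

/-- On the common part the two formulas are glued. -/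
theorem hE_of_A (hL : 8 ≤ L) {c v : ℝ × ℝ} (hA : c ∈ setA) :
    hE L c v = ((0, 2 + Kr c * (1 - zet v.1)), (fx L (Kx c), fy L (Ky c)), (1, v.2)) := by
  rcases (abs_eq (zero_le_one' ℝ)).1 (abs_Kr_of_A hA) with h | h
  · rw [hE_collar hL (Or.inl rfl) (by rw [h]; norm_num) (by rw [h]; norm_num), h]
    refine Prod.ext (Prod.ext rfl ?_) (Prod.ext rfl (Prod.ext ?_ rfl))
    · simp only
      ring
    · simp only
      ring
  · rw [hE_collar hL (Or.inr rfl) (by rw [h]; norm_num) (by rw [h]; norm_num), h]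
    refine Prod.ext (Prod.ext rfl ?_) (Prod.ext rfl (Prod.ext ?_ rfl))
    · simp only
      ring
    · simp only
      ring

/-- Coincidences between the compressed handle and the discs. -/
theorem hE_cE (hL : 8 ≤ L) {c c' v v' : ℝ × ℝ} (hA : c ∈ setA) (hc' : rho c' ≤ 1)
    (hv : v ∈ Fib) (hv' : v' ∈ Fib)
    (h : hE L c' v' = ((0, (cE L c v).2.2.1), (cE L c v).1, (1, (cE L c v).2.2.2))) :
    c = c' ∧ v = v' := by
  rw [show ((0, (cE L c v).2.2.1), (cE L c v).1, (1, (cE L c v).2.2.2)) = hE L c v from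
    (hE_of_A hL hA).symm] at h
  exact hE_inj hL (by linarith [hA.2.2]) hc' hv hv' h.symm

/-- On the boundary of the square. -/
theorem hE_of_one (hL : 8 ≤ L) {c v : ℝ × ℝ} (h : rho c = 1) :
    hE L c v = ((L, c.2 + 2), (L, c.1 + 2), v) := by
  obtain ⟨k1, k2, k3⟩ := K_of_rho_one h
  have b1 : |c.1| ≤ 1 := (le_max_left _ _).trans h.le
  have b2 : |c.2| ≤ 1 := (le_max_right _ _).trans h.le
  rw [abs_le] at b1 b2
  rw [hE_mid (by rw [k1]; exact ⟨by linarith, by linarith⟩),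
    om_half hL (by rw [k1]; linarith) (by rw [k1]; linarith), k1, k2, k3, fx_one,
    fy_half hL (by linarith)]
  refine Prod.ext (Prod.ext rfl ?_) (Prod.ext (Prod.ext rfl ?_) rfl)
  · simp only
    ring
  · simp only
    ring

theorem rho_of_bd {a : ℝ × ℝ} (ha : a ∈ bdFib) : rho (a.1 - 2, a.2 - 2) = 1 := by
  obtain ⟨⟨⟨a1, a2⟩, a3, a4⟩, h⟩ := ha
  have b1 : |a.1 - 2| ≤ 1 := abs_le.2 ⟨by linarith, by linarith⟩
  have b2 : |a.2 - 2| ≤ 1 := abs_le.2 ⟨by linarith, by linarith⟩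
  unfold rho
  simp only
  refine le_antisymm (max_le b1 b2) ?_
  rcases h with h | h | h | h
  · refine le_max_of_le_left ?_
    rw [h]; norm_num
  · refine le_max_of_le_left ?_
    rw [h]; norm_num
  · refine le_max_of_le_right ?_
    rw [h]; norm_num
  · refine le_max_of_le_right ?_
    rw [h]; norm_num

/-- Coincidences between the compressed handle and the base. -/
theorem hE_base (hL : 8 ≤ L) {c v a w : ℝ × ℝ} (hc : rho c ≤ 1) (hv : v ∈ Fib) (hw : w ∈ Fib)
    (ha : a ∈ bdFib) (h : hE L c v = ((L, a.2), (L, a.1), w)) :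
    c = (a.1 - 2, a.2 - 2) ∧ v = w := by
  have h1 := rho_of_bd ha
  have h2 : hE L (a.1 - 2, a.2 - 2) w = ((L, a.2), (L, a.1), w) := by
    rw [hE_of_one hL h1]
    simp
  exact hE_inj hL hc h1.le hv hw (h.trans h2.symm)

end Vale.Agent.P215.H562.Sane
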