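import Vale.Agent.P215.H562.SaneB

/-!
# Explicit framed discs, part C: the pieces of the disc in the thickening
-/

noncomputable section

namespace Vale.Agent.P215.H562.Sane

open Set Topology H788 H788.CappedGrope

variable (G : CappedGrope)

/-! ### Points of the thickening -/

theorem thick_nice : Nice (fun x y : Pt G.region => G.Glue x.1 y.1 ∨ G.Glue y.1 x.1) := by
  have := compactSpace_pt G.region (finite_nonempty G) (isCompact_region G)
  exact nice_of_cells (R := G.region) (s := src G) (t := tgt G) (A := cell G) (f := gmap G)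
    (glue_iff G) (continuous_gmap G) (fun k => (poly_cell G k).closed)
    (fun k x hx y hy => dist_gmap G k x y hx hy) (src_disj G) (tgt_disj G) (src_tgt_disj G)

open Classical in
/-- The point of the thickening with given block and coordinates. -/
def mk (b : Block) (x : E) : G.Thickening :=
  if h : x ∈ G.region b then Quot.mk _ (⟨(b, x), h⟩ : G.Pts) else G.basePt

theorem mk_eq {b : Block} {x : E} (h : x ∈ G.region b) :
    mk G b x = Quot.mk _ (⟨(b, x), h⟩ : G.Pts) := dif_pos h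

theorem mk_eq_iff {b b' : Block} {x x' : E} (h : x ∈ G.region b) (h' : x' ∈ G.region b') :
    mk G b x = mk G b' x' ↔
      (b, x) = (b', x') ∨ G.Glue (b, x) (b', x') ∨ G.Glue (b', x') (b, x) := by
  rw [mk_eq G h, mk_eq G h']
  have hS := thick_nice G
  have := quot_eq_iff (r := fun x y : Pt G.region => G.Glue x.1 y.1) hS.symm hS.func
    (fun x y => Iff.rfl) ⟨(b, x), h⟩ ⟨(b', x'), h'⟩
  refine this.trans (or_congr ?_ Iff.rfl)
  exact Subtype.ext_iff

theorem continuousOn_mk {X : Type*} [TopologicalSpace X] {Z : Set X} {f : X → E}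
    (hf : Continuous f) (b : Block) (h : ∀ z ∈ Z, f z ∈ G.region b) :
    ContinuousOn (fun z => mk G b (f z)) Z := by
  rw [continuousOn_iff_continuous_domRestrict]
  have hq : Continuous (fun z : Z => (⟨(b, f z), h z z.2⟩ : G.Pts)) :=
    Continuous.subtype_mk (continuous_const.prodMk (hf.comp continuous_subtype_val)) _
  have hm : Continuous (Quot.mk (fun x y : G.Pts => G.Glue x.1 y.1)) := continuous_quot_mk
  have : Z.domRestrict (fun z => mk G b (f z)) =
      (Quot.mk (fun x y : G.Pts => G.Glue x.1 y.1)) ∘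
        (fun z : Z => (⟨(b, f z), h z z.2⟩ : G.Pts)) :=
    funext fun z => mk_eq G (h z z.2)
  rw [this]
  exact hm.comp hq

/-- Inversion of the gluing relation. -/
theorem glue_inv {P Q : Block × E} (h : G.Glue P Q) :
    (∃ (s j : ℕ) (a v : ℝ × ℝ), a ∈ bdFib ∧ P = (.base s, ((4 * (j : ℝ) + a.1, a.2), 0, v)) ∧
      Q = (.handle s j, ((G.L, a.2), (G.L, a.1), v))) ∨
    (∃ (s j : ℕ) (z v : ℝ × ℝ), z ∈ bdSq G.L ∧ v ∈ Fib ∧
      P = (nextBlock (s, j, false), (z, 0, v)) ∧ Q = (.handle s j, (z, (0, v.1), (3, v.2)))) ∨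
    (∃ (s j : ℕ) (z v : ℝ × ℝ), z ∈ bdSq G.L ∧ v ∈ Fib ∧
      P = (nextBlock (s, j, true), (z, 0, v)) ∧ Q = (.handle s j, ((0, v.1), z, (1, v.2)))) ∨
    (∃ (k : ℕ) (c c' : Tip) (b : Bool) (u v : ℝ × ℝ), G.plumbings[k]? = some (c, c', b) ∧
      u ∈ Fib ∧ v ∈ Fib ∧ P = (.cap c, ((8 * (k : ℝ) + u.1, u.2), 0, v)) ∧
      Q = (.cap c', ((8 * (k : ℝ) + 4 + (if b then v else H788.refl v).1,
        (if b then v else H788.refl v).2), 0, if b then u else H788.refl u))) := by
  cases h with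
  | hole s j a v ha => exact Or.inl ⟨s, j, a, v, ha, rfl, rfl⟩
  | fst s j z v hz hv => exact Or.inr (Or.inl ⟨s, j, z, v, hz, hv, rfl, rfl⟩)
  | snd s j z v hz hv => exact Or.inr (Or.inr (Or.inl ⟨s, j, z, v, hz, hv, rfl, rfl⟩))
  | pos k c c' h u v hu hv =>
    exact Or.inr (Or.inr (Or.inr ⟨k, c, c', true, u, v, h, hu, hv, rfl, rfl⟩))
  | neg k c c' h u v hu hv =>
    exact Or.inr (Or.inr (Or.inr ⟨k, c, c', false, u, v, h, hu, hv, rfl, rfl⟩))

theorem eight_le_L : 8 ≤ G.L := by
  have := le_L G (n := 2) (by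
    have := List.length_pos_iff.2 G.genera_ne_nil
    omega)
  norm_num at this
  exact this

/-! ### The pieces -/

/-- The position in the square `[0, L]²`. -/
def XX (p : Disc × Disc) : ℝ × ℝ := (G.L / 2 * (p.1.1.1 + 1), G.L / 2 * (p.1.1.2 + 1))

/-- The fibre coordinate. -/
def VV (p : Disc × Disc) : ℝ × ℝ := (p.2.1.1 + 2, p.2.1.2 + 2)

/-- The closed hole. -/
def chole (j : ℕ) : Set (ℝ × ℝ) :=
  {x | x.1 ∈ Icc (4 * (j : ℝ) + 1) (4 * j + 3) ∧ x.2 ∈ Icc (1 : ℝ) 3}

/-- Local coordinate in the `j`-th hole. -/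
def loc (j : ℕ) (x : ℝ × ℝ) : ℝ × ℝ := (x.1 - (4 * (j : ℝ) + 2), x.2 - 2)

theorem continuous_XX : Continuous (XX G) := by unfold XX; fun_prop
theorem continuous_VV : Continuous VV := by unfold VV; fun_prop
theorem continuous_loc (j : ℕ) : Continuous (loc j) := by unfold loc; fun_prop

theorem disc_abs (y : Disc) : |y.1.1| ≤ 1 ∧ |y.1.2| ≤ 1 := by
  have := y.2
  rw [mem_closedBall_zero_iff, Prod.norm_def] at this
  exact max_le_iff.1 this

theorem VV_mem (p : Disc × Disc) : VV p ∈ Fib := by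
  obtain ⟨h1, h2⟩ := disc_abs p.2
  rw [abs_le] at h1 h2
  exact ⟨⟨by unfold VV; linarith, by unfold VV; linarith⟩,
    ⟨by unfold VV; linarith, by unfold VV; linarith⟩⟩

theorem XX_mem (p : Disc × Disc) : XX G p ∈ Sq G.L := by
  obtain ⟨h1, h2⟩ := disc_abs p.1
  rw [abs_le] at h1 h2
  have hL := eight_le_L G
  unfold XX
  refine ⟨⟨?_, ?_⟩, ⟨?_, ?_⟩⟩ <;> simp only <;> nlinarith

theorem XX_VV_inj {p q : Disc × Disc} (h1 : XX G p = XX G q) (h2 : VV p = VV q) : p = q := by
  have hL := eight_le_L G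
  have hL' : G.L / 2 ≠ 0 := by linarith
  have a1 : G.L / 2 * (p.1.1.1 + 1) = G.L / 2 * (q.1.1.1 + 1) := congrArg Prod.fst h1
  have a2 : G.L / 2 * (p.1.1.2 + 1) = G.L / 2 * (q.1.1.2 + 1) := congrArg Prod.snd h1
  have a3 : p.2.1.1 + 2 = q.2.1.1 + 2 := congrArg Prod.fst h2
  have a4 : p.2.1.2 + 2 = q.2.1.2 + 2 := congrArg Prod.snd h2
  refine Prod.ext (Subtype.ext (Prod.ext ?_ ?_)) (Subtype.ext (Prod.ext ?_ ?_))
  · linarith [mul_left_cancel₀ hL' a1]
  · linarith [mul_left_cancel₀ hL' a2]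
  · linarith
  · linarith

theorem rho_loc {j : ℕ} {x : ℝ × ℝ} (h : x ∈ chole j) : rho (loc j x) ≤ 1 := by
  obtain ⟨⟨h1, h2⟩, h3, h4⟩ := h
  unfold rho loc
  exact max_le (abs_le.2 ⟨by simp only; linarith, by simp only; linarith⟩)
    (abs_le.2 ⟨by simp only; linarith, by simp only; linarith⟩)

theorem chole_inj {j j' : ℕ} {x : ℝ × ℝ} (h : x ∈ chole j) (h' : x ∈ chole j') : j = j' := by
  obtain ⟨⟨h1, h2⟩, -⟩ := h
  obtain ⟨⟨h3, h4⟩, -⟩ := h'
  exact nat_eq_of_near (a := 4) (x := x.1) (by norm_num) ⟨by push_cast; linarith, by push_cast; linarith⟩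
    ⟨by push_cast; linarith, by push_cast; linarith⟩

/-- The names of the pieces: the base, the `j`-th compressed handle, the discs in the `j`-th cap. -/
abbrev Pc : Type := Option (Fin (G.genus 0) × Bool)

/-- the pieces -/
def ZZ : Pc G → Set (Disc × Disc)
  | none => {p | ∀ j < G.genus 0, XX G p ∉ hole j}
  | some (j, false) => {p | XX G p ∈ chole j ∧ loc j (XX G p) ∈ setB}
  | some (j, true) => {p | XX G p ∈ chole j ∧ loc j (XX G p) ∈ setA}

/-- the blocks of the pieces -/
def bk : Pc G → Block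
  | none => .base 0
  | some (j, false) => .handle 0 j
  | some (j, true) => .cap (0, j, true)

/-- the lifts of the map to the blocks -/
def ph : Pc G → Disc × Disc → E
  | none => fun p => (XX G p, 0, VV p)
  | some (j, false) => fun p => hE G.L (loc j (XX G p)) (VV p)
  | some (j, true) => fun p => cE G.L (loc j (XX G p)) (VV p)

seal hE in
theorem continuous_hE' (L : ℝ) {X : Type*} [TopologicalSpace X] {f g : X → ℝ × ℝ}
    (hf : Continuous f) (hg : Continuous g) : Continuous fun x => hE L (f x) (g x) := by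
  have h1 := continuous_hE L
  have h2 : Continuous fun x => (f x, g x) := hf.prodMk hg
  exact h1.comp' h2

seal cE in
theorem continuous_cE' (L : ℝ) {X : Type*} [TopologicalSpace X] {f g : X → ℝ × ℝ}
    (hf : Continuous f) (hg : Continuous g) : Continuous fun x => cE L (f x) (g x) := by
  have h1 := continuous_cE L
  have h2 : Continuous fun x => (f x, g x) := hf.prodMk hg
  exact h1.comp' h2

theorem continuous_ph (i : Pc G) : Continuous (ph G i) := by
  have h1 := continuous_XX G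
  have h2 := continuous_VV
  match i with
  | none => exact h1.prodMk (continuous_const.prodMk h2)
  | some (j, false) => exact continuous_hE' G.L ((continuous_loc j).comp h1) h2
  | some (j, true) => exact continuous_cE' G.L ((continuous_loc j).comp h1) h2

theorem isClosed_chole (j : ℕ) : IsClosed (chole j) := by
  have h1 : IsClosed {x : ℝ × ℝ | x.1 ∈ Icc (4 * (j : ℝ) + 1) (4 * j + 3)} :=
    isClosed_Icc.preimage continuous_fst
  have h2 : IsClosed {x : ℝ × ℝ | x.2 ∈ Icc (1 : ℝ) 3} := isClosed_Icc.preimage continuous_snd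
  exact h1.inter h2

theorem isClosed_ZZ (i : Pc G) : IsClosed (ZZ G i) := by
  have h1 := continuous_XX G
  match i with
  | none =>
    have : ZZ G none = ⋂ j : ℕ, ⋂ _ : j < G.genus 0, (XX G ⁻¹' (hole j))ᶜ := by
      ext p
      simp only [ZZ, mem_ofPred_eq, mem_iInter, mem_compl_iff, mem_preimage]
    rw [this]
    refine isClosed_iInter fun j => isClosed_iInter fun _ => ?_
    rw [isClosed_compl_iff]
    refine IsOpen.preimage h1 ?_
    have h2 : IsOpen {x : ℝ × ℝ | x.1 ∈ Ioo (4 * (j : ℝ) + 1) (4 * j + 3)} :=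
      isOpen_Ioo.preimage continuous_fst
    have h3 : IsOpen {x : ℝ × ℝ | x.2 ∈ Ioo (1 : ℝ) 3} := isOpen_Ioo.preimage continuous_snd
    exact h2.inter h3
  | some (j, false) =>
    exact ((isClosed_chole j).preimage h1).inter
      (isClosed_setB.preimage ((continuous_loc j).comp h1))
  | some (j, true) =>
    exact ((isClosed_chole j).preimage h1).inter
      (isClosed_setA.preimage ((continuous_loc j).comp h1))

theorem hole_sub_chole {j : ℕ} : hole j ⊆ chole j := fun _ h =>
  ⟨⟨h.1.1.le, h.1.2.le⟩, ⟨h.2.1.le, h.2.2.le⟩⟩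

theorem cover (p : Disc × Disc) : ∃ i, p ∈ ZZ G i := by
  by_cases h : ∀ j < G.genus 0, XX G p ∉ hole j
  · exact ⟨none, h⟩
  push Not at h
  obtain ⟨j, hj, h⟩ := h
  rcases mem_A_or_B (loc j (XX G p)) with h' | h'
  · exact ⟨some (⟨j, hj⟩, true), hole_sub_chole h, h'⟩
  · exact ⟨some (⟨j, hj⟩, false), hole_sub_chole h, h'⟩

theorem ph_mem {i : Pc G} {p : Disc × Disc} (h : p ∈ ZZ G i) : ph G i p ∈ G.region (bk G i) := by
  have hL := eight_le_L G
  match i, h with
  | none, h => exact ⟨G.genus_zero_pos, ⟨XX_mem G p, h⟩, rfl, VV_mem p⟩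
  | some (j, false), h => exact hE_mem G hL j.2 (rho_loc h.1) h.2 (VV_mem p)
  | some (j, true), h => exact cE_mem G hL j.2 h.2 (VV_mem p)

end Vale.Agent.P215.H562.Sane
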