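import Vale.Agent.P215.H562.SaneC

/-!
# Explicit framed discs, part D: the map, its continuity and its coincidences
-/

noncomputable section

namespace Vale.Agent.P215.H562.Sane

open Set Topology H788 H788.CappedGrope

variable (G : CappedGrope)

/-! ### Compatibility -/

theorem nextBlock_true (s j : ℕ) : nextBlock (s, j, true) = .cap (s, j, true) := by
  unfold nextBlock
  rw [if_neg]
  simp

theorem compat_base_handle (j : Fin (G.genus 0)) {p : Disc × Disc} (h : p ∈ ZZ G none)
    (h' : p ∈ ZZ G (some (j, false))) :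
    mk G (bk G none) (ph G none p) = mk G (bk G (some (j, false))) (ph G (some (j, false)) p) := by
  have hL := eight_le_L G
  rw [mk_eq_iff G (ph_mem G h) (ph_mem G h')]
  right; left
  have h1 : XX G p ∉ hole j := h j j.2
  obtain ⟨⟨⟨a1, a2⟩, a3, a4⟩, -⟩ := h'
  have hbd : ((XX G p).1 - 4 * (j : ℝ), (XX G p).2) ∈ bdFib := by
    refine ⟨⟨⟨by simp only; linarith, by simp only; linarith⟩, ⟨a3, a4⟩⟩, ?_⟩
    by_contra hne
    push Not at hne
    obtain ⟨n1, n2, n3, n4⟩ := hne
    simp only at n1 n2 n3 n4
    apply h1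
    refine ⟨⟨lt_of_le_of_ne a1 ?_, lt_of_le_of_ne a2 ?_⟩,
      ⟨lt_of_le_of_ne a3 (Ne.symm n3), lt_of_le_of_ne a4 n4⟩⟩
    · intro e; apply n1; linarith
    · intro e; apply n2; linarith
  have hr := rho_of_bd hbd
  have hloc : loc j (XX G p) = ((XX G p).1 - 4 * (j : ℝ) - 2, (XX G p).2 - 2) := by
    unfold loc
    refine Prod.ext ?_ rfl
    simp only
    ring
  have e1 : ph G (some (j, false)) p = ((G.L, (XX G p).2), (G.L, (XX G p).1 - 4 * (j : ℝ)), VV p) := by
    change hE G.L (loc j (XX G p)) (VV p) = _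
    rw [hloc, hE_of_one hL hr]
    refine Prod.ext (Prod.ext rfl ?_) (Prod.ext (Prod.ext rfl ?_) rfl)
    · simp
    · simp
  have e2 : ph G none p = ((4 * ((j : ℕ) : ℝ) + ((XX G p).1 - 4 * (j : ℝ)), (XX G p).2), 0, VV p) := by
    change (XX G p, 0, VV p) = _
    refine Prod.ext (Prod.ext ?_ rfl) rfl
    simp
  rw [e1, e2]
  exact Glue.hole 0 j ((XX G p).1 - 4 * (j : ℝ), (XX G p).2) (VV p) hbd

theorem compat_base_cap (j : Fin (G.genus 0)) {p : Disc × Disc} (h : p ∈ ZZ G none)
    (h' : p ∈ ZZ G (some (j, true))) : False := by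
  have h1 : XX G p ∉ hole j := h j j.2
  obtain ⟨⟨⟨a1, a2⟩, a3, a4⟩, hA⟩ := h'
  apply h1
  have h2 : rho (loc j (XX G p)) ≤ 2 / 3 := hA.2.2
  have h3 : |(XX G p).1 - (4 * (j : ℝ) + 2)| ≤ 2 / 3 := (le_max_left _ _).trans h2
  have h4 : |(XX G p).2 - 2| ≤ 2 / 3 := (le_max_right _ _).trans h2
  rw [abs_le] at h3 h4
  exact ⟨⟨by linarith, by linarith⟩, by linarith, by linarith⟩

theorem compat_handle_cap (j : Fin (G.genus 0)) {p : Disc × Disc} (h : p ∈ ZZ G (some (j, false)))
    (h' : p ∈ ZZ G (some (j, true))) :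
    mk G (bk G (some (j, true))) (ph G (some (j, true)) p) =
      mk G (bk G (some (j, false))) (ph G (some (j, false)) p) := by
  have hL := eight_le_L G
  rw [mk_eq_iff G (ph_mem G h') (ph_mem G h)]
  right; left
  have hB := h.2
  have hA := h'.2
  have hf := fib_mem hA (VV_mem p)
  have hbd := bd_mem hL (rho_loc h.1) hB
  have e1 : ph G (some (j, false)) p = ((0, 2 + Kr (loc j (XX G p)) * (1 - zet (VV p).1)),
      (fx G.L (Kx (loc j (XX G p))), fy G.L (Ky (loc j (XX G p)))), (1, (VV p).2)) :=
    hE_of_A hL hA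
  have e2 : bk G (some (j, true)) = nextBlock (0, (j : ℕ), true) := (nextBlock_true 0 j).symm
  rw [e1, e2]
  exact Glue.snd 0 j (fx G.L (Kx (loc j (XX G p))), fy G.L (Ky (loc j (XX G p))))
    (2 + Kr (loc j (XX G p)) * (1 - zet (VV p).1), (VV p).2) hbd ⟨⟨hf.1.le, hf.2.le⟩, (VV_mem p).2⟩

theorem compat {i k : Pc G} {p : Disc × Disc} (h : p ∈ ZZ G i) (h' : p ∈ ZZ G k) :
    mk G (bk G i) (ph G i p) = mk G (bk G k) (ph G k p) := by
  match i, k, h, h' with
  | none, none, _, _ => rfl
  | none, some (j, false), h, h' => exact compat_base_handle G j h h'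
  | none, some (j, true), h, h' => exact (compat_base_cap G j h h').elim
  | some (j, false), none, h, h' => exact (compat_base_handle G j h' h).symm
  | some (j, true), none, h, h' => exact (compat_base_cap G j h' h).elim
  | some (j, false), some (j', false), h, h' =>
    obtain rfl : j = j' := Fin.ext (chole_inj h.1 h'.1)
    rfl
  | some (j, true), some (j', true), h, h' =>
    obtain rfl : j = j' := Fin.ext (chole_inj h.1 h'.1)
    rfl
  | some (j, false), some (j', true), h, h' =>
    obtain rfl : j = j' := Fin.ext (chole_inj h.1 h'.1)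
    exact (compat_handle_cap G j h h').symm
  | some (j, true), some (j', false), h, h' =>
    obtain rfl : j = j' := Fin.ext (chole_inj h.1 h'.1)
    exact compat_handle_cap G j h' h

/-- The map of the disc. -/
def Phi (p : Disc × Disc) : G.Thickening :=
  mk G (bk G (cover G p).choose) (ph G (cover G p).choose p)

theorem Phi_eq {i : Pc G} {p : Disc × Disc} (h : p ∈ ZZ G i) :
    Phi G p = mk G (bk G i) (ph G i p) :=
  compat G (cover G p).choose_spec h

theorem continuous_Phi : Continuous (Phi G) := by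
  refine (locallyFinite_of_finite (ZZ G)).continuous ?_ (isClosed_ZZ G) fun i => ?_
  · exact eq_univ_of_forall fun p => mem_iUnion.2 (cover G p)
  · exact (continuousOn_mk G (continuous_ph G i) (bk G i) fun z hz => ph_mem G hz).congr
      fun z hz => Phi_eq G hz

theorem Phi_boundary (z : Circ) (v : Disc) : Phi G (z.toDisc, v) = G.attach (z, v) := by
  have h := G.attachE_mem z v
  have h1 : (z.toDisc, v) ∈ ZZ G none := fun j hj => h.2.1.2 j hj
  rw [Phi_eq G h1]
  exact mk_eq G h

/-! ### Coincidences -/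

theorem eq_of_ph_eq {i k : Pc G} {p q : Disc × Disc} (h : p ∈ ZZ G i) (h' : q ∈ ZZ G k)
    (e : (bk G i, ph G i p) = (bk G k, ph G k q)) : p = q := by
  have hL := eight_le_L G
  obtain ⟨e1, e2⟩ := Prod.mk.inj e
  have loc_inj : ∀ {j j' : Fin (G.genus 0)}, j = j' → loc j (XX G p) = loc j' (XX G q) →
      VV p = VV q → p = q := by
    intro j j' hj hl hv
    subst hj
    refine XX_VV_inj G (Prod.ext ?_ ?_) hv
    · have : (XX G p).1 - (4 * (j : ℝ) + 2) = (XX G q).1 - (4 * (j : ℝ) + 2) := congrArg Prod.fst hl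
      linarith
    · have : (XX G p).2 - 2 = (XX G q).2 - 2 := congrArg Prod.snd hl
      linarith
  match i, k, h, h' with
  | none, none, _, _ =>
    exact XX_VV_inj G (congrArg (fun x : E => x.1) e2) (congrArg (fun x : E => x.2.2) e2)
  | none, some (j, false), h, h' => exact absurd e1 (by simp [bk])
  | none, some (j, true), h, h' => exact absurd e1 (by simp [bk])
  | some (j, false), none, h, h' => exact absurd e1 (by simp [bk])
  | some (j, true), none, h, h' => exact absurd e1 (by simp [bk])
  | some (j, false), some (j', false), h, h' =>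
    have hj : j = j' := by
      simp only [bk, Block.handle.injEq, true_and] at e1
      exact Fin.ext e1
    obtain ⟨c1, c2⟩ := hE_inj hL (rho_loc h.1) (rho_loc h'.1) (VV_mem p) (VV_mem q) e2
    exact loc_inj hj c1 c2
  | some (j, true), some (j', true), h, h' =>
    have hj : j = j' := by
      simp only [bk, Block.cap.injEq, Prod.mk.injEq, true_and, and_true] at e1
      exact Fin.ext e1
    obtain ⟨c1, c2⟩ := cE_inj hL h.2 h'.2 (VV_mem p) (VV_mem q) e2
    exact loc_inj hj c1 c2
  | some (j, false), some (j', true), h, h' => exact absurd e1 (by simp [bk])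
  | some (j, true), some (j', false), h, h' => exact absurd e1 (by simp [bk])

/-- The coincidences given by the plumbings. -/
def Plumbed (p q : Disc × Disc) : Prop :=
  ∃ (j j' : Fin (G.genus 0)) (k : ℕ) (b : Bool) (u v : ℝ × ℝ),
    G.plumbings[k]? = some ((0, (j : ℕ), true), (0, (j' : ℕ), true), b) ∧ u ∈ Fib ∧ v ∈ Fib ∧
    p ∈ ZZ G (some (j, true)) ∧ q ∈ ZZ G (some (j', true)) ∧
    ph G (some (j, true)) p = ((8 * (k : ℝ) + u.1, u.2), 0, v) ∧
    ph G (some (j', true)) q = ((8 * (k : ℝ) + 4 + (if b then v else H788.refl v).1,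
        (if b then v else H788.refl v).2), 0, if b then u else H788.refl u)

theorem eq_of_glue {i k : Pc G} {p q : Disc × Disc} (h : p ∈ ZZ G i) (h' : q ∈ ZZ G k)
    (e : G.Glue (bk G i, ph G i p) (bk G k, ph G k q)) : p = q ∨ Plumbed G p q := by
  have hL := eight_le_L G
  rcases glue_inv G e with ⟨s, j, a, v, ha, e1, e2⟩ | ⟨s, j, z, v, hz, hv, e1, e2⟩ |
    ⟨s, j, z, v, hz, hv, e1, e2⟩ | ⟨n, c, c', b, u, v, hn, hu, hv, e1, e2⟩
  · left
    obtain ⟨b1, x1⟩ := Prod.mk.inj e1
    obtain ⟨b2, x2⟩ := Prod.mk.inj e2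
    match i, k, h, h' with
    | some (_, false), _, _, _ => exact absurd b1 (by simp [bk])
    | some (_, true), _, _, _ => exact absurd b1 (by simp [bk])
    | none, none, _, _ => exact absurd b2 (by simp [bk])
    | none, some (_, true), _, _ => exact absurd b2 (by simp [bk])
    | none, some (j', false), h, h' =>
      have hj : (j' : ℕ) = j := by
        simp only [bk, Block.handle.injEq] at b2
        exact b2.2
      subst hj
      have x2' : hE G.L (loc j' (XX G q)) (VV q) = ((G.L, a.2), (G.L, a.1), v) := x2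
      have hv : VV p = v := congrArg (fun x : E => x.2.2) x1
      have hx : XX G p = (4 * (j' : ℝ) + a.1, a.2) := congrArg (fun x : E => x.1) x1
      obtain ⟨c1, c2⟩ := hE_base hL (rho_loc h'.1) (VV_mem q) (hv ▸ VV_mem p) ha x2'
      refine XX_VV_inj G ?_ (hv.trans c2.symm)
      rw [hx]
      refine Prod.ext ?_ ?_
      · have : (XX G q).1 - (4 * (j' : ℝ) + 2) = a.1 - 2 := congrArg Prod.fst c1
        simp only
        linarith
      · have : (XX G q).2 - 2 = a.2 - 2 := congrArg Prod.snd c1
        simp only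
        linarith
  · exfalso
    obtain ⟨b1, x1⟩ := Prod.mk.inj e1
    obtain ⟨b2, x2⟩ := Prod.mk.inj e2
    match k, h' with
    | none, _ => exact absurd b2 (by simp [bk])
    | some (_, true), _ => exact absurd b2 (by simp [bk])
    | some (j', false), h' =>
      have hj : s = 0 := by
        simp only [bk, Block.handle.injEq] at b2
        exact b2.1.symm
      subst hj
      have hb : nextBlock (0, j, false) = .base (j + 1) := by simp [nextBlock]
      rw [hb] at b1
      match i, h with
      | none, _ => exact absurd b1 (by simp [bk])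
      | some (_, false), _ => exact absurd b1 (by simp [bk])
      | some (_, true), _ => exact absurd b1 (by simp [bk])
  · left
    obtain ⟨b1, x1⟩ := Prod.mk.inj e1
    obtain ⟨b2, x2⟩ := Prod.mk.inj e2
    rw [nextBlock_true] at b1
    match i, k, h, h' with
    | none, _, _, _ => exact absurd b1 (by simp [bk])
    | some (_, false), _, _, _ => exact absurd b1 (by simp [bk])
    | some (_, true), none, _, _ => exact absurd b2 (by simp [bk])
    | some (_, true), some (_, true), _, _ => exact absurd b2 (by simp [bk])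
    | some (j₁, true), some (j₂, false), h, h' =>
      have hj1 : (j₁ : ℕ) = j := by
        simp only [bk, Block.cap.injEq, Prod.mk.injEq, and_true] at b1
        exact b1.2
      have hj2 : (j₂ : ℕ) = j := by
        simp only [bk, Block.handle.injEq] at b2
        exact b2.2
      obtain rfl : j₁ = j₂ := Fin.ext (hj1.trans hj2.symm)
      have x1' : cE G.L (loc j₁ (XX G p)) (VV p) = (z, 0, v) := x1
      have x2' : hE G.L (loc j₁ (XX G q)) (VV q) = (z, (0, v.1), (3, v.2)) ∨
        hE G.L (loc j₁ (XX G q)) (VV q) = ((0, v.1), z, (1, v.2)) := Or.inr x2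
      obtain ⟨c1, c2⟩ := hE_cE hL (c := loc j₁ (XX G p)) (v := VV p) h.2 (rho_loc h'.1) (VV_mem p)
        (VV_mem q) (by rw [x1']; exact x2)
      refine XX_VV_inj G (Prod.ext ?_ ?_) c2
      · have : (XX G p).1 - (4 * (j₁ : ℝ) + 2) = (XX G q).1 - (4 * (j₁ : ℝ) + 2) :=
          congrArg Prod.fst c1
        linarith
      · have : (XX G p).2 - 2 = (XX G q).2 - 2 := congrArg Prod.snd c1
        linarith
  · right
    obtain ⟨b1, x1⟩ := Prod.mk.inj e1
    obtain ⟨b2, x2⟩ := Prod.mk.inj e2
    match i, k, h, h' with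
    | none, _, _, _ => exact absurd b1 (by simp [bk])
    | some (_, false), _, _, _ => exact absurd b1 (by simp [bk])
    | some (_, true), none, _, _ => exact absurd b2 (by simp [bk])
    | some (_, true), some (_, false), _, _ => exact absurd b2 (by simp [bk])
    | some (j₁, true), some (j₂, true), h, h' =>
      simp only [bk, Block.cap.injEq] at b1 b2
      subst b1 b2
      exact ⟨j₁, j₂, n, b, u, v, hn, hu, hv, h, h', x1, x2⟩

theorem coin {p q : Disc × Disc} (e : Phi G p = Phi G q) :
    p = q ∨ Plumbed G p q ∨ Plumbed G q p := by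
  obtain ⟨i, hi⟩ := cover G p
  obtain ⟨k, hk⟩ := cover G q
  rw [Phi_eq G hi, Phi_eq G hk, mk_eq_iff G (ph_mem G hi) (ph_mem G hk)] at e
  rcases e with e | e | e
  · exact Or.inl (eq_of_ph_eq G hi hk e)
  · rcases eq_of_glue G hi hk e with h | h
    · exact Or.inl h
    · exact Or.inr (Or.inl h)
  · rcases eq_of_glue G hk hi e with h | h
    · exact Or.inl h.symm
    · exact Or.inr (Or.inr h)

end Vale.Agent.P215.H562.Sane
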