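import Vale.Agent.P215.H562.SaneD

/-!
# Explicit framed discs, part E: the double points, and the framed disc
-/

noncomputable section

namespace Vale.Agent.P215.H562.Sane

open Set Topology H788 H788.CappedGrope

/-! ### Signs and the fibre map -/

/-- the sign of a Boolean -/
def sg (b : Bool) : ℝ := if b then 1 else -1

theorem abs_sg (b : Bool) : |sg b| = 1 := by cases b <;> simp [sg]

theorem sg_inj {b c : Bool} (h : sg b = sg c) : b = c := by
  cases b <;> cases c <;> simp only [sg] at h <;> norm_num at h <;> rfl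

/-- the fibre map -/
def ro (e : ℝ) (w : ℝ × ℝ) : ℝ × ℝ := (2 + e * (1 - zet w.1), w.2)

theorem refl_ro (e : ℝ) (w : ℝ × ℝ) : H788.refl (ro e w) = ro (-e) w := by
  unfold H788.refl ro
  refine Prod.ext ?_ rfl
  simp only
  ring

theorem refl_refl (w : ℝ × ℝ) : H788.refl (H788.refl w) = w := by
  unfold H788.refl
  refine Prod.ext ?_ rfl
  simp only
  ring

theorem ro_mem {e : ℝ} (he : |e| = 1) {w : ℝ × ℝ} (hw : w ∈ Fib) : ro e w ∈ Fib := by
  obtain ⟨z1, z2⟩ := zet_mem hw.1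
  refine ⟨?_, hw.2⟩
  rcases (abs_eq (zero_le_one' ℝ)).1 he with h | h <;> rw [h] <;>
    exact ⟨by simp only [ro]; linarith, by simp only [ro]; linarith⟩

theorem ro_inj {e f : ℝ} (he : |e| = 1) (hf : |f| = 1) {w w' : ℝ × ℝ} (hw : w ∈ Fib)
    (hw' : w' ∈ Fib) (h : ro e w = ro f w') : e = f ∧ w = w' := by
  obtain ⟨z1, z2⟩ := zet_mem hw.1
  obtain ⟨z1', z2'⟩ := zet_mem hw'.1
  have h1 : 2 + e * (1 - zet w.1) = 2 + f * (1 - zet w'.1) := congrArg Prod.fst h
  have h2 : w.2 = w'.2 := (congrArg Prod.snd h : (ro e w).2 = (ro f w').2)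
  have key : e = f ∧ w.1 = w'.1 := by
    rcases (abs_eq (zero_le_one' ℝ)).1 he with h | h <;>
    rcases (abs_eq (zero_le_one' ℝ)).1 hf with h' | h' <;> rw [h, h'] at h1 ⊢
    · unfold zet at h1
      exact ⟨rfl, by linarith⟩
    · linarith
    · linarith
    · unfold zet at h1
      exact ⟨rfl, by linarith⟩
  exact ⟨key.1, Prod.ext key.2 h2⟩

theorem continuous_ro (e : ℝ) : Continuous (ro e) := by
  unfold ro zet
  fun_prop

/-- The fibre coordinate of a point of the model disc. -/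
def V2 (u : Disc) : ℝ × ℝ := (u.1.1 + 2, u.1.2 + 2)

theorem continuous_V2 : Continuous V2 := by unfold V2; fun_prop

theorem V2_mem (u : Disc) : V2 u ∈ Fib := VV_mem (u, u)

theorem V2_inj {u v : Disc} (h : V2 u = V2 v) : u = v := by
  have a3 : u.1.1 + 2 = v.1.1 + 2 := congrArg Prod.fst h
  have a4 : u.1.2 + 2 = v.1.2 + 2 := congrArg Prod.snd h
  exact Subtype.ext (Prod.ext (by linarith) (by linarith))

/-- The projection to the model disc. -/
def cl (x : ℝ × ℝ) : Disc := ⟨(max (-1) (min 1 x.1), max (-1) (min 1 x.2)), by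
  rw [mem_closedBall_zero_iff, Prod.norm_def]
  refine max_le (abs_le.2 ⟨le_max_left _ _, max_le (by norm_num) (min_le_left _ _)⟩)
    (abs_le.2 ⟨le_max_left _ _, max_le (by norm_num) (min_le_left _ _)⟩)⟩

theorem continuous_cl : Continuous cl := by
  refine Continuous.subtype_mk ?_ _
  fun_prop

theorem cl_val {x : ℝ × ℝ} (h1 : x.1 ∈ Ioo (-1 : ℝ) 1) (h2 : x.2 ∈ Ioo (-1 : ℝ) 1) :
    (cl x).1 = x := by
  refine Prod.ext ?_ ?_
  · change max (-1) (min 1 x.1) = x.1
    rw [min_eq_right h1.2.le, max_eq_right h1.1.le]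
  · change max (-1) (min 1 x.2) = x.2
    rw [min_eq_right h2.2.le, max_eq_right h2.1.le]

variable (G : CappedGrope)

/-- The position in the disc `e = ± 1` of the `j`-th hole which is mapped to the position `z` in
the cap. -/
def pos (j : ℕ) (e : ℝ) (z : ℝ × ℝ) : Disc :=
  cl (2 / G.L * (4 * (j : ℝ) + 2 + (Kinv e (gx G.L z.1) (gy G.L z.2)).1) - 1,
    2 / G.L * (2 + (Kinv e (gx G.L z.1) (gy G.L z.2)).2) - 1)

theorem continuous_pos (j : ℕ) (e : ℝ) : Continuous (pos G j e) := by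
  have h1 := continuous_gx G.L
  have h2 := continuous_gy G.L
  refine continuous_cl.comp ?_
  unfold Kinv
  fun_prop

theorem Kinv_abs {L e : ℝ} (hL : 8 ≤ L) {z : ℝ × ℝ} (he : |e| = 1) (hz : z ∈ Sq L) :
    |(Kinv e (gx L z.1) (gy L z.2)).1| ≤ 2 / 3 ∧ |(Kinv e (gx L z.1) (gy L z.2)).2| ≤ 2 / 3 := by
  have h := (Kinv_mem_A he (gx_mem hL hz.1) (gy_mem hL hz.2)).2.2
  exact max_le_iff.1 h

theorem pos_aux {j : ℕ} (hj : j < G.genus 0) {e : ℝ} (he : |e| = 1) {z : ℝ × ℝ}
    (hz : z ∈ Sq G.L) :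
    (pos G j e z).1 = (2 / G.L * (4 * (j : ℝ) + 2 + (Kinv e (gx G.L z.1) (gy G.L z.2)).1) - 1,
      2 / G.L * (2 + (Kinv e (gx G.L z.1) (gy G.L z.2)).2) - 1) ∧ ‖(pos G j e z).1‖ < 1 := by
  have hL := eight_le_L G
  obtain ⟨k1, k2⟩ := Kinv_abs hL he hz
  rw [abs_le] at k1 k2
  have hj' := hole_le_L G hj
  have hj0 : (0 : ℝ) ≤ j := Nat.cast_nonneg j
  have key : ∀ t : ℝ, 0 < t → t < G.L → 2 / G.L * t - 1 ∈ Ioo (-1 : ℝ) 1 := by
    intro t h1 h2
    have hL0 : 0 < G.L := by linarith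
    have h3 : 0 < 2 / G.L * t := by positivity
    have h4 : 2 / G.L * t < 2 := by
      rw [div_mul_eq_mul_div, div_lt_iff₀ hL0]
      linarith
    exact ⟨by linarith, by linarith⟩
  have m1 := key (4 * (j : ℝ) + 2 + (Kinv e (gx G.L z.1) (gy G.L z.2)).1) (by linarith)
    (by linarith)
  have m2 := key (2 + (Kinv e (gx G.L z.1) (gy G.L z.2)).2) (by linarith) (by linarith)
  have hval : (pos G j e z).1 =
      (2 / G.L * (4 * (j : ℝ) + 2 + (Kinv e (gx G.L z.1) (gy G.L z.2)).1) - 1,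
      2 / G.L * (2 + (Kinv e (gx G.L z.1) (gy G.L z.2)).2) - 1) := cl_val m1 m2
  refine ⟨hval, ?_⟩
  rw [hval, Prod.norm_def]
  exact max_lt (abs_lt.2 m1) (abs_lt.2 m2)

theorem XX_pos {j : ℕ} (hj : j < G.genus 0) {e : ℝ} (he : |e| = 1) {z : ℝ × ℝ}
    (hz : z ∈ Sq G.L) (v : Disc) :
    XX G (pos G j e z, v) = (4 * (j : ℝ) + 2 + (Kinv e (gx G.L z.1) (gy G.L z.2)).1,
      2 + (Kinv e (gx G.L z.1) (gy G.L z.2)).2) := by
  have hL := eight_le_L G
  have hL0 : G.L ≠ 0 := by linarith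
  unfold XX
  simp only
  rw [(pos_aux G hj he hz).1]
  refine Prod.ext ?_ ?_
  · simp only
    field_simp
    ring
  · simp only
    field_simp
    ring

theorem loc_pos {j : ℕ} (hj : j < G.genus 0) {e : ℝ} (he : |e| = 1) {z : ℝ × ℝ}
    (hz : z ∈ Sq G.L) (v : Disc) :
    loc j (XX G (pos G j e z, v)) = Kinv e (gx G.L z.1) (gy G.L z.2) := by
  rw [XX_pos G hj he hz]
  unfold loc
  refine Prod.ext ?_ ?_
  · simp only
    ring
  · simp only
    ring

theorem chole_pos {j : ℕ} (hj : j < G.genus 0) {e : ℝ} (he : |e| = 1) {z : ℝ × ℝ}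
    (hz : z ∈ Sq G.L) (v : Disc) : XX G (pos G j e z, v) ∈ chole j := by
  obtain ⟨k1, k2⟩ := Kinv_abs (eight_le_L G) he hz
  rw [abs_le] at k1 k2
  rw [XX_pos G hj he hz]
  exact ⟨⟨by simp only; linarith, by simp only; linarith⟩,
    ⟨by simp only; linarith, by simp only; linarith⟩⟩

theorem ZZ_pos (j : Fin (G.genus 0)) {e : ℝ} (he : |e| = 1) {z : ℝ × ℝ}
    (hz : z ∈ Sq G.L) (v : Disc) : (pos G j e z, v) ∈ ZZ G (some (j, true)) := by
  refine ⟨chole_pos G j.2 he hz v, ?_⟩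
  rw [loc_pos G j.2 he hz]
  exact Kinv_mem_A he (gx_mem (eight_le_L G) hz.1) (gy_mem (eight_le_L G) hz.2)

theorem ph_pos (j : Fin (G.genus 0)) {e : ℝ} (he : |e| = 1) {z : ℝ × ℝ}
    (hz : z ∈ Sq G.L) (v : Disc) :
    ph G (some (j, true)) (pos G j e z, v) = (z, 0, ro e (V2 v)) := by
  have hL := eight_le_L G
  change cE G.L (loc j (XX G (pos G j e z, v))) (VV (pos G j e z, v)) = _
  rw [loc_pos G j.2 he hz]
  obtain ⟨k1, k2, k3⟩ := K_Kinv he (gx_mem hL hz.1) (gy_mem hL hz.2)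
  unfold cE
  rw [k1, k2, k3, fx_gx hL, fy_gy hL]
  rfl

theorem eq_pos {j : Fin (G.genus 0)} {p : Disc × Disc} {z w : ℝ × ℝ}
    (h : p ∈ ZZ G (some (j, true))) (e : ph G (some (j, true)) p = (z, 0, w)) :
    z ∈ Sq G.L ∧ ∃ b : Bool, p.1 = pos G j (sg b) z ∧ w = ro (sg b) (V2 p.2) := by
  have hL := eight_le_L G
  have e' : cE G.L (loc j (XX G p)) (VV p) = (z, 0, w) := e
  have hz : z ∈ Sq G.L := by
    have : (fx G.L (Kx (loc j (XX G p))), fy G.L (Ky (loc j (XX G p)))) = z :=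
      congrArg (fun x : E => x.1) e'
    rw [← this]
    exact sq_mem hL (rho_loc h.1)
  refine ⟨hz, ?_⟩
  obtain ⟨b, hb⟩ : ∃ b : Bool, Kr (loc j (XX G p)) = sg b := by
    rcases (abs_eq (zero_le_one' ℝ)).1 (abs_Kr_of_A h.2) with h | h
    · exact ⟨true, by rw [h]; rfl⟩
    · exact ⟨false, by rw [h]; rfl⟩
  have hw : w = ro (sg b) (V2 p.2) := by
    have : (2 + Kr (loc j (XX G p)) * (1 - zet (VV p).1), (VV p).2) = w :=
      congrArg (fun x : E => x.2.2) e'
    rw [← this, hb]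
    rfl
  refine ⟨b, ?_, hw⟩
  have h1 := ph_pos G j (abs_sg b) hz p.2
  have h2 := eq_of_ph_eq G h (ZZ_pos G j (abs_sg b) hz p.2) (by rw [e, h1, hw])
  exact congrArg Prod.fst h2

theorem pos_inj {j l : Fin (G.genus 0)} {e f : ℝ} (he : |e| = 1) (hf : |f| = 1) {z w : ℝ × ℝ}
    (hz : z ∈ Sq G.L) (hw : w ∈ Sq G.L) (h : pos G j e z = pos G l f w) :
    j = l ∧ e = f ∧ z = w := by
  have hL := eight_le_L G
  have h1 := chole_pos G j.2 he hz Disc.zero
  have h2 := chole_pos G l.2 hf hw Disc.zero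
  rw [← h] at h2
  obtain rfl : j = l := Fin.ext (chole_inj h1 h2)
  have h3 := loc_pos G j.2 he hz Disc.zero
  rw [h, loc_pos G j.2 hf hw] at h3
  obtain ⟨k1, k2, k3⟩ := K_Kinv he (gx_mem hL hz.1) (gy_mem hL hz.2)
  obtain ⟨k4, k5, k6⟩ := K_Kinv hf (gx_mem hL hw.1) (gy_mem hL hw.2)
  rw [← h3] at k1 k2 k3
  refine ⟨rfl, k1.symm.trans k4, Prod.ext ?_ ?_⟩
  · rw [← fx_gx hL z.1, k2.symm.trans k5, fx_gx hL]
  · rw [← fy_gy hL z.2, k3.symm.trans k6, fy_gy hL]

/-! ### The double points -/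

/-- The plumbings between two caps of the first stage. -/
abbrev Pl : Type := {k : Fin G.plumbings.length // (G.plumbings[k]).1.1 = 0 ∧
  (G.plumbings[k]).2.1.1 = 0}

variable {G} in
/-- the first cap -/
def Pl.fst (k : Pl G) : Fin (G.genus 0) := ⟨(G.plumbings[k.1]).1.2.1, by
  have := (G.isCapped _ (List.getElem_mem k.1.2)).1.1
  have h : (G.plumbings[k.1.1]).1.1 = 0 := k.2.1
  rw [h] at this
  exact this⟩

variable {G} in
/-- the second cap -/
def Pl.snd (k : Pl G) : Fin (G.genus 0) := ⟨(G.plumbings[k.1]).2.1.2.1, by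
  have := (G.isCapped _ (List.getElem_mem k.1.2)).2.1
  have h : (G.plumbings[k.1.1]).2.1.1 = 0 := k.2.2
  rw [h] at this
  exact this⟩

variable {G} in
/-- the sign -/
def Pl.sign (k : Pl G) : Bool := (G.plumbings[k.1]).2.2

theorem Pl.spec (k : Pl G) : G.plumbings[(k.1 : ℕ)]? =
    some ((0, (k.fst : ℕ), true), (0, (k.snd : ℕ), true), k.sign) := by
  rw [List.getElem?_eq_getElem k.1.2]
  obtain ⟨h1, h2⟩ := G.isCapped _ (List.getElem_mem k.1.2)
  have h3 : (G.plumbings[k.1.1]).1.1 = 0 := k.2.1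
  have h4 : (G.plumbings[k.1.1]).2.1.1 = 0 := k.2.2
  have h5 : (G.plumbings[k.1.1]).1.2.2 = true := by
    by_contra h
    exact h1.2 ⟨h3, by simpa using h⟩
  have h6 : (G.plumbings[k.1.1]).2.1.2.2 = true := by
    by_contra h
    exact h2.2 ⟨h4, by simpa using h⟩
  congr 1
  refine Prod.ext (Prod.ext h3 (Prod.ext rfl h5)) (Prod.ext (Prod.ext h4 (Prod.ext rfl h6)) rfl)

/-- The index set of the double points. -/
abbrev Idx : Type := Pl G × Bool × Bool

/-- The position in the first cap of a point of the plumbing square. -/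
def za (k : ℕ) (u : ℝ × ℝ) : ℝ × ℝ := (8 * (k : ℝ) + u.1, u.2)

/-- The position in the second cap of a point of the plumbing square. -/
def zb (k : ℕ) (u : ℝ × ℝ) : ℝ × ℝ := (8 * (k : ℝ) + 4 + u.1, u.2)

theorem za_mem {k : ℕ} (hk : k < G.plumbings.length) {u : ℝ × ℝ} (hu : u ∈ Fib) :
    za k u ∈ Sq G.L := by
  have := plumb_le_L G hk
  have h0 : (0 : ℝ) ≤ k := Nat.cast_nonneg k
  obtain ⟨⟨h1, h2⟩, h3, h4⟩ := hu
  exact ⟨⟨by simp only [za]; linarith, by simp only [za]; linarith⟩,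
    ⟨by simp only [za]; linarith, by simp only [za]; linarith⟩⟩

theorem zb_mem {k : ℕ} (hk : k < G.plumbings.length) {u : ℝ × ℝ} (hu : u ∈ Fib) :
    zb k u ∈ Sq G.L := by
  have := plumb_le_L G hk
  have h0 : (0 : ℝ) ≤ k := Nat.cast_nonneg k
  obtain ⟨⟨h1, h2⟩, h3, h4⟩ := hu
  exact ⟨⟨by simp only [zb]; linarith, by simp only [zb]; linarith⟩,
    ⟨by simp only [zb]; linarith, by simp only [zb]; linarith⟩⟩

theorem za_inj {k l : ℕ} {u v : ℝ × ℝ} (hu : u ∈ Fib) (hv : v ∈ Fib) (h : za k u = za l v) :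
    k = l ∧ u = v := by
  have h1 : 8 * (k : ℝ) + u.1 = 8 * (l : ℝ) + v.1 := congrArg Prod.fst h
  have h2 : u.2 = v.2 := (congrArg Prod.snd h : (za k u).2 = (za l v).2)
  have hkl : k = l := nat_eq_of_near (a := 8) (x := 8 * (k : ℝ) + u.1) (by norm_num)
    ⟨by push_cast; linarith [hu.1.1], by push_cast; linarith [hu.1.2]⟩
    ⟨by push_cast; linarith [hv.1.1], by push_cast; linarith [hv.1.2]⟩
  subst hkl
  exact ⟨rfl, Prod.ext (by linarith) h2⟩

theorem zb_inj {k l : ℕ} {u v : ℝ × ℝ} (hu : u ∈ Fib) (hv : v ∈ Fib) (h : zb k u = zb l v) :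
    k = l ∧ u = v := by
  have h1 : 8 * (k : ℝ) + 4 + u.1 = 8 * (l : ℝ) + 4 + v.1 := congrArg Prod.fst h
  refine za_inj hu hv (Prod.ext ?_ (congrArg Prod.snd h : (zb k u).2 = (zb l v).2))
  simp only [za]
  linarith

theorem za_ne_zb {k l : ℕ} {u v : ℝ × ℝ} (hu : u ∈ Fib) (hv : v ∈ Fib) : za k u ≠ zb l v := by
  intro h
  have h1 : 8 * (k : ℝ) + u.1 = 8 * (l : ℝ) + 4 + v.1 := congrArg Prod.fst h
  have h2 : 2 * k = 2 * l + 1 := nat_eq_of_near (a := 4) (x := 8 * (k : ℝ) + u.1) (by norm_num)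
    ⟨by push_cast; linarith [hu.1.1], by push_cast; linarith [hu.1.2]⟩
    ⟨by push_cast; linarith [hv.1.1], by push_cast; linarith [hv.1.2]⟩
  omega

theorem abs_ss (b c : Bool) : |sg b * sg c| = 1 := by rw [abs_mul, abs_sg, abs_sg, one_mul]

theorem ss_inj {s b c : Bool} (h : sg s * sg b = sg s * sg c) : b = c :=
  sg_inj (mul_left_cancel₀ (by cases s <;> simp [sg]) h)

variable {G}

/-- the first preimages -/
def fa (i : Idx G) (u : Disc) : Disc :=
  pos G i.1.fst (sg i.2.1) (za i.1.1 (ro (sg i.1.sign * sg i.2.2) (V2 u)))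

/-- the second preimages -/
def fb (i : Idx G) (v : Disc) : Disc :=
  pos G i.1.snd (sg i.2.2) (zb i.1.1 (ro (sg i.1.sign * sg i.2.1) (V2 v)))

theorem continuous_za (k : ℕ) : Continuous (za k) := by unfold za; fun_prop
theorem continuous_zb (k : ℕ) : Continuous (zb k) := by unfold zb; fun_prop

theorem continuous_fa (i : Idx G) : Continuous (fa i) :=
  (continuous_pos G _ _).comp ((continuous_za _).comp ((continuous_ro _).comp continuous_V2))

theorem continuous_fb (i : Idx G) : Continuous (fb i) :=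
  (continuous_pos G _ _).comp ((continuous_zb _).comp ((continuous_ro _).comp continuous_V2))

theorem fa_pt (i : Idx G) (u : Disc) : za i.1.1 (ro (sg i.1.sign * sg i.2.2) (V2 u)) ∈ Sq G.L :=
  za_mem G i.1.1.2 (ro_mem (abs_ss _ _) (V2_mem u))

theorem fb_pt (i : Idx G) (u : Disc) : zb i.1.1 (ro (sg i.1.sign * sg i.2.1) (V2 u)) ∈ Sq G.L :=
  zb_mem G i.1.1.2 (ro_mem (abs_ss _ _) (V2_mem u))

theorem fa_inj {i k : Idx G} {u v : Disc} (h : fa i u = fa k v) : i = k ∧ u = v := by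
  obtain ⟨-, h2, h3⟩ := pos_inj G (abs_sg _) (abs_sg _) (fa_pt i u) (fa_pt k v) h
  obtain ⟨h4, h5⟩ := za_inj (ro_mem (abs_ss _ _) (V2_mem u)) (ro_mem (abs_ss _ _) (V2_mem v)) h3
  obtain ⟨h6, h7⟩ := ro_inj (abs_ss _ _) (abs_ss _ _) (V2_mem u) (V2_mem v) h5
  obtain ⟨i1, i2, i3⟩ := i
  obtain ⟨k1, k2, k3⟩ := k
  obtain rfl : i1 = k1 := Subtype.ext (Fin.ext h4)
  obtain rfl : i2 = k2 := sg_inj h2
  obtain rfl : i3 = k3 := ss_inj h6
  exact ⟨rfl, V2_inj h7⟩

theorem fb_inj {i k : Idx G} {u v : Disc} (h : fb i u = fb k v) : i = k ∧ u = v := by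
  obtain ⟨-, h2, h3⟩ := pos_inj G (abs_sg _) (abs_sg _) (fb_pt i u) (fb_pt k v) h
  obtain ⟨h4, h5⟩ := zb_inj (ro_mem (abs_ss _ _) (V2_mem u)) (ro_mem (abs_ss _ _) (V2_mem v)) h3
  obtain ⟨h6, h7⟩ := ro_inj (abs_ss _ _) (abs_ss _ _) (V2_mem u) (V2_mem v) h5
  obtain ⟨i1, i2, i3⟩ := i
  obtain ⟨k1, k2, k3⟩ := k
  obtain rfl : i1 = k1 := Subtype.ext (Fin.ext h4)
  obtain rfl : i3 = k3 := sg_inj h2
  obtain rfl : i2 = k2 := ss_inj h6
  exact ⟨rfl, V2_inj h7⟩

theorem fa_ne_fb (i k : Idx G) (u v : Disc) : fa i u ≠ fb k v := by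
  intro h
  obtain ⟨-, -, h3⟩ := pos_inj G (abs_sg _) (abs_sg _) (fa_pt i u) (fb_pt k v) h
  exact za_ne_zb (ro_mem (abs_ss _ _) (V2_mem u)) (ro_mem (abs_ss _ _) (V2_mem v)) h3

theorem norm_fa (i : Idx G) (u : Disc) : ‖(fa i u).1‖ < 1 :=
  (pos_aux G i.1.fst.2 (abs_sg _) (fa_pt i u)).2

theorem norm_fb (i : Idx G) (u : Disc) : ‖(fb i u).1‖ < 1 :=
  (pos_aux G i.1.snd.2 (abs_sg _) (fb_pt i u)).2

theorem Phi_plumb (i : Idx G) (u v : Disc) : Phi G (fa i u, v) = Phi G (fb i v, u) := by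
  have m1 : (fa i u, v) ∈ ZZ G (some (i.1.fst, true)) :=
    ZZ_pos G i.1.fst (abs_sg i.2.1) (fa_pt i u) v
  have m2 : (fb i v, u) ∈ ZZ G (some (i.1.snd, true)) :=
    ZZ_pos G i.1.snd (abs_sg i.2.2) (fb_pt i v) u
  have e1 : ph G (some (i.1.fst, true)) (fa i u, v) = _ :=
    ph_pos G i.1.fst (abs_sg i.2.1) (fa_pt i u) v
  have e2 : ph G (some (i.1.snd, true)) (fb i v, u) = _ :=
    ph_pos G i.1.snd (abs_sg i.2.2) (fb_pt i v) u
  rw [Phi_eq G m1, Phi_eq G m2, mk_eq_iff G (ph_mem G m1) (ph_mem G m2)]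
  right; left
  rw [e1, e2]
  have hs := i.1.spec
  obtain ⟨k, b, c⟩ := i
  change G.Glue (.cap (0, (k.fst : ℕ), true), (za k.1 (ro (sg k.sign * sg c) (V2 u)), 0,
    ro (sg b) (V2 v))) (.cap (0, (k.snd : ℕ), true), (zb k.1 (ro (sg k.sign * sg b) (V2 v)), 0,
    ro (sg c) (V2 u)))
  cases hk : k.sign with
  | true =>
    rw [hk] at hs
    have := Glue.pos (G := G) k.1 _ _ hs (ro (sg c) (V2 u)) (ro (sg b) (V2 v))
      (ro_mem (abs_sg _) (V2_mem u)) (ro_mem (abs_sg _) (V2_mem v))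
    rw [show sg true = 1 from rfl, one_mul, one_mul]
    exact this
  | false =>
    rw [hk] at hs
    have := Glue.neg (G := G) k.1 _ _ hs (ro (-sg c) (V2 u)) (ro (sg b) (V2 v))
      (ro_mem (by rw [abs_neg, abs_sg]) (V2_mem u)) (ro_mem (abs_sg _) (V2_mem v))
    rw [refl_ro, refl_ro, neg_neg] at this
    rw [show sg false = -1 from rfl, neg_one_mul, neg_one_mul]
    exact this

theorem plumbed_iff {p q : Disc × Disc} (h : Plumbed G p q) :
    ∃ (i : Idx G) (u v : Disc), p = (fa i u, v) ∧ q = (fb i v, u) := by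
  obtain ⟨j, j', k, s, u, v, hk, hu, hv, hp, hq, e1, e2⟩ := h
  obtain ⟨-, b, h1, h2⟩ := eq_pos G hp e1
  obtain ⟨-, c, h3, h4⟩ := eq_pos G hq e2
  have hlt : k < G.plumbings.length := by
    by_contra h
    rw [List.getElem?_eq_none (not_lt.1 h)] at hk
    exact absurd hk (by simp)
  have hk' := hk
  rw [List.getElem?_eq_getElem hlt] at hk'
  have hk'' := Option.some.inj hk'
  let κ : Pl G := ⟨⟨k, hlt⟩, by
    constructor
    · change (G.plumbings[k]).1.1 = 0
      rw [hk'']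
    · change (G.plumbings[k]).2.1.1 = 0
      rw [hk'']⟩
  have f1 : κ.fst = j := Fin.ext (by
    change (G.plumbings[k]).1.2.1 = j
    rw [hk''])
  have f2 : κ.snd = j' := Fin.ext (by
    change (G.plumbings[k]).2.1.2.1 = j'
    rw [hk''])
  have f3 : κ.sign = s := by
    change (G.plumbings[k]).2.2 = s
    rw [hk'']
  refine ⟨(κ, b, c), q.2, p.2, Prod.ext ?_ rfl, Prod.ext ?_ rfl⟩
  · rw [h1]
    change _ = pos G κ.fst (sg b) (za k (ro (sg κ.sign * sg c) (V2 q.2)))
    rw [f1, f3]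
    congr 1
    have : u = ro (sg s * sg c) (V2 q.2) := by
      cases s with
      | true =>
        rw [show sg true = 1 from rfl, one_mul]
        exact h4
      | false =>
        rw [show sg false = -1 from rfl, neg_one_mul, ← refl_ro, ← h4]
        exact (refl_refl u).symm
    rw [← this]
    rfl
  · rw [h3]
    change _ = pos G κ.snd (sg c) (zb k (ro (sg κ.sign * sg b) (V2 p.2)))
    rw [f2, f3]
    congr 1
    have : (if s then v else H788.refl v) = ro (sg s * sg b) (V2 p.2) := by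
      cases s with
      | true =>
        rw [show sg true = 1 from rfl, one_mul]
        exact h2
      | false =>
        rw [show sg false = -1 from rfl, neg_one_mul, ← refl_ro, ← h2]
        rfl
    rw [← this]
    rfl

/-! ### The framed disc -/

instance : Finite (Idx G) := inferInstance

/-- **The explicit framed disc** in the thickening of a capped grope: the first stage, compressed
along its caps.  Each plumbing between two caps of the first stage gives four double points. -/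
theorem exists_framedDisc (G : CappedGrope) :
    ∃ D : FramedDisc G.Thickening G.attach, D.n = 4 * Nat.card (Pl G) := by
  classical
  have : Fintype (Idx G) := Fintype.ofFinite _
  let e := Fintype.equivFin (Idx G)
  refine ⟨{ map := Phi G
            continuous_map := continuous_Phi G
            boundary := Phi_boundary G
            n := Fintype.card (Idx G)
            a := fun k => fa (e.symm k)
            b := fun k => fb (e.symm k)
            continuous_a := fun k => continuous_fa _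
            continuous_b := fun k => continuous_fb _
            interior_a := fun k u => norm_fa _ u
            interior_b := fun k u => norm_fb _ u
            injective_a := fun k l u v h => ⟨e.symm.injective (fa_inj h).1, (fa_inj h).2⟩
            injective_b := fun k l u v h => ⟨e.symm.injective (fb_inj h).1, (fb_inj h).2⟩
            disjoint_a_b := fun k l u v => fa_ne_fb _ _ u v
            plumb := fun k u v => Phi_plumb _ u v
            injective_map := ?_ }, ?_⟩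
  · intro x y hxy
    rcases coin G hxy with h | h | h
    · exact Or.inl h
    · obtain ⟨i, u, v, h1, h2⟩ := plumbed_iff h
      exact Or.inr ⟨e i, u, v, Or.inl ⟨by rw [Equiv.symm_apply_apply]; exact h1,
        by rw [Equiv.symm_apply_apply]; exact h2⟩⟩
    · obtain ⟨i, u, v, h1, h2⟩ := plumbed_iff h
      exact Or.inr ⟨e i, u, v, Or.inr ⟨by rw [Equiv.symm_apply_apply]; exact h1,
        by rw [Equiv.symm_apply_apply]; exact h2⟩⟩
  · change Fintype.card (Idx G) = _
    rw [← Nat.card_eq_fintype_card, Nat.card_prod, Nat.card_prod]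
    simp
    ring

/-- If no plumbing joins two caps of the first stage, then there is an embedded framed disc. -/
theorem exists_embedded (G : CappedGrope)
    (h : ∀ x ∈ G.plumbings, ¬ (x.1.1 = 0 ∧ x.2.1.1 = 0)) :
    ∃ D : FramedDisc G.Thickening G.attach, D.n = 0 := by
  obtain ⟨D, hD⟩ := exists_framedDisc G
  have : IsEmpty (Pl G) := ⟨fun k => h _ (List.getElem_mem k.1.2) k.2⟩
  exact ⟨D, by rw [hD, Nat.card_of_isEmpty]⟩

/-- The trivial group is good. -/
theorem good_of_subsingleton (Γ : Type) [Group Γ] [Subsingleton Γ] : Good Γ := by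
  intro G φ
  obtain ⟨D, -⟩ := exists_framedDisc G
  exact ⟨D, fun _ _ _ => Subsingleton.elim _ _⟩

end Vale.Agent.P215.H562.Sane
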